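import Mathlib
import Vale.Agent.Lib.P154.ChartAlg

/-!
The averages over the six permutations, in the chart coordinates.
-/

namespace Vale.Agent.Lib.P154

/-- The pairing `α` of `(-1, 1/2 - x, 1/2 + x)` with `(v0, v1, v2)`. -/
noncomputable def alC (x v0 v1 v2 : ℝ) : ℝ := (-v0 + (1 / 2 - x) * v1 + (1 / 2 + x) * v2) / 3

/-- The quadratic form `Q̃`. -/
noncomputable def QC (ρ x v0 v1 v2 : ℝ) : ℝ :=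
  (1 - ρ) ^ (2 : ℕ) * (v0 - ρ * alC x v0 v1 v2) ^ (2 : ℕ) +
    (1 + ρ * (1 / 2 - x)) ^ (2 : ℕ) * (v1 - ρ * alC x v0 v1 v2) ^ (2 : ℕ) +
    (1 + ρ * (1 / 2 + x)) ^ (2 : ℕ) * (v2 - ρ * alC x v0 v1 v2) ^ (2 : ℕ)

/-- The linear form `L̂`. -/
noncomputable def LC (ρ x v0 v1 v2 : ℝ) : ℝ :=
  -((1 - ρ) * (v0 - ρ * alC x v0 v1 v2)) +
    (1 / 2 - x) * (1 + ρ * (1 / 2 - x)) * (v1 - ρ * alC x v0 v1 v2) +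
    (1 / 2 + x) * (1 + ρ * (1 / 2 + x)) * (v2 - ρ * alC x v0 v1 v2)

/-- `σ`. -/
noncomputable def sigC (x : ℝ) : ℝ := 3 / 2 + 2 * x ^ (2 : ℕ)
/-- `rg/3`. -/
noncomputable def rg3C (ρ x : ℝ) : ℝ := ρ * (x ^ (2 : ℕ) - 1 / 4)
/-- `γ̃`. -/
noncomputable def gamC (x : ℝ) : ℝ := 3 * x ^ (2 : ℕ) - 3 / 4
/-- `s`. -/
noncomputable def ssC (ρ x : ℝ) : ℝ := ρ ^ (2 : ℕ) * sigC x
/-- `c/3`. -/
noncomputable def c3C (ρ x : ℝ) : ℝ := ρ ^ (2 : ℕ) * rg3C ρ x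
/-- `Hr`. -/
noncomputable def hrC (ρ x : ℝ) : ℝ := -sigC x / 6 - rg3C ρ x + ssC ρ x * sigC x / 18
/-- `Lam1`. -/
noncomputable def lamC (ρ x : ℝ) : ℝ := (sigC x - 3 * rg3C ρ x) * (6 - ssC ρ x) / 18
/-- `h31`. -/
noncomputable def h31C (ρ x : ℝ) : ℝ :=
  sigC x * (1 + c3C ρ x - (2 / 3) * ssC ρ x - ssC ρ x * c3C ρ x / 6 + ssC ρ x ^ (2 : ℕ) / 12)
/-- `h61`. -/
noncomputable def h61C (ρ x : ℝ) : ℝ :=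
  -4 * rg3C ρ x + rg3C ρ x * c3C ρ x + sigC x * c3C ρ x + sigC x * ssC ρ x / 12 -
    sigC x * ssC ρ x * c3C ρ x / 6 - sigC x * ssC ρ x ^ (2 : ℕ) / 36 + sigC x * ssC ρ x ^ (3 : ℕ) / 216
/-- `h71`. -/
noncomputable def h71C (ρ x : ℝ) : ℝ :=
  -rg3C ρ x + 2 * rg3C ρ x * c3C ρ x + (2 / 3) * sigC x - sigC x * c3C ρ x / 6 -
    sigC x * c3C ρ x ^ (2 : ℕ) / 3 - sigC x * ssC ρ x / 3 - sigC x * ssC ρ x * c3C ρ x / 12 +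
    (5 / 54) * sigC x * ssC ρ x ^ (2 : ℕ) + (5 / 216) * sigC x * ssC ρ x ^ (2 : ℕ) * c3C ρ x -
    sigC x * ssC ρ x ^ (3 : ℕ) / 108

theorem sum_al (ρ x y : ℝ) :
    alC x (-1) (1 / 2 - y) (1 / 2 + y) + alC x (-1) (1 / 2 + y) (1 / 2 - y) + alC x (1 / 2 - y) (-1) (1 / 2 + y) + alC x (1 / 2 - y) (1 / 2 + y) (-1) + alC x (1 / 2 + y) (-1) (1 / 2 - y) + alC x (1 / 2 + y) (1 / 2 - y) (-1) =
      0 := by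
  simp only [alC, QC, LC, hrC, lamC, h31C, h61C, h71C, ssC, c3C, rg3C, sigC, gamC]
  ring

theorem sum_L (ρ x y : ℝ) :
    LC ρ x (-1) (1 / 2 - y) (1 / 2 + y) + LC ρ x (-1) (1 / 2 + y) (1 / 2 - y) + LC ρ x (1 / 2 - y) (-1) (1 / 2 + y) + LC ρ x (1 / 2 - y) (1 / 2 + y) (-1) + LC ρ x (1 / 2 + y) (-1) (1 / 2 - y) + LC ρ x (1 / 2 + y) (1 / 2 - y) (-1) =
      0 := by
  simp only [alC, QC, LC, hrC, lamC, h31C, h61C, h71C, ssC, c3C, rg3C, sigC, gamC]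
  ring

theorem sum_Q (ρ x y : ℝ) :
    QC ρ x (-1) (1 / 2 - y) (1 / 2 + y) + QC ρ x (-1) (1 / 2 + y) (1 / 2 - y) + QC ρ x (1 / 2 - y) (-1) (1 / 2 + y) + QC ρ x (1 / 2 - y) (1 / 2 + y) (-1) + QC ρ x (1 / 2 + y) (-1) (1 / 2 - y) + QC ρ x (1 / 2 + y) (1 / 2 - y) (-1) =
      6 * sigC y * (1 + ρ ^ (2 : ℕ) * hrC ρ x) := by
  simp only [alC, QC, LC, hrC, lamC, h31C, h61C, h71C, ssC, c3C, rg3C, sigC, gamC]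
  ring

theorem sum_aQ (ρ x y : ℝ) :
    alC x (-1) (1 / 2 - y) (1 / 2 + y) * QC ρ x (-1) (1 / 2 - y) (1 / 2 + y) + alC x (-1) (1 / 2 + y) (1 / 2 - y) * QC ρ x (-1) (1 / 2 + y) (1 / 2 - y) + alC x (1 / 2 - y) (-1) (1 / 2 + y) * QC ρ x (1 / 2 - y) (-1) (1 / 2 + y) + alC x (1 / 2 - y) (1 / 2 + y) (-1) * QC ρ x (1 / 2 - y) (1 / 2 + y) (-1) + alC x (1 / 2 + y) (-1) (1 / 2 - y) * QC ρ x (1 / 2 + y) (-1) (1 / 2 - y) + alC x (1 / 2 + y) (1 / 2 - y) (-1) * QC ρ x (1 / 2 + y) (1 / 2 - y) (-1) =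
      6 * ρ * gamC y * lamC ρ x := by
  simp only [alC, QC, LC, hrC, lamC, h31C, h61C, h71C, ssC, c3C, rg3C, sigC, gamC]
  ring

theorem sum_LQ (ρ x y : ℝ) :
    LC ρ x (-1) (1 / 2 - y) (1 / 2 + y) * QC ρ x (-1) (1 / 2 - y) (1 / 2 + y) + LC ρ x (-1) (1 / 2 + y) (1 / 2 - y) * QC ρ x (-1) (1 / 2 + y) (1 / 2 - y) + LC ρ x (1 / 2 - y) (-1) (1 / 2 + y) * QC ρ x (1 / 2 - y) (-1) (1 / 2 + y) + LC ρ x (1 / 2 - y) (1 / 2 + y) (-1) * QC ρ x (1 / 2 - y) (1 / 2 + y) (-1) + LC ρ x (1 / 2 + y) (-1) (1 / 2 - y) * QC ρ x (1 / 2 + y) (-1) (1 / 2 - y) + LC ρ x (1 / 2 + y) (1 / 2 - y) (-1) * QC ρ x (1 / 2 + y) (1 / 2 - y) (-1) =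
      6 * ρ * gamC y * h31C ρ x := by
  simp only [alC, QC, LC, hrC, lamC, h31C, h61C, h71C, ssC, c3C, rg3C, sigC, gamC]
  ring

theorem sum_QQ (ρ x y : ℝ) :
    (QC ρ x (-1) (1 / 2 - y) (1 / 2 + y)) ^ (2 : ℕ) + (QC ρ x (-1) (1 / 2 + y) (1 / 2 - y)) ^ (2 : ℕ) + (QC ρ x (1 / 2 - y) (-1) (1 / 2 + y)) ^ (2 : ℕ) + (QC ρ x (1 / 2 - y) (1 / 2 + y) (-1)) ^ (2 : ℕ) + (QC ρ x (1 / 2 + y) (-1) (1 / 2 - y)) ^ (2 : ℕ) + (QC ρ x (1 / 2 + y) (1 / 2 - y) (-1)) ^ (2 : ℕ) =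
      6 * sigC y ^ (2 : ℕ) * (1 + ρ ^ (2 : ℕ) * h61C ρ x) := by
  simp only [alC, QC, LC, hrC, lamC, h31C, h61C, h71C, ssC, c3C, rg3C, sigC, gamC]
  ring

theorem sum_aQQ (ρ x y : ℝ) :
    alC x (-1) (1 / 2 - y) (1 / 2 + y) * (QC ρ x (-1) (1 / 2 - y) (1 / 2 + y)) ^ (2 : ℕ) + alC x (-1) (1 / 2 + y) (1 / 2 - y) * (QC ρ x (-1) (1 / 2 + y) (1 / 2 - y)) ^ (2 : ℕ) + alC x (1 / 2 - y) (-1) (1 / 2 + y) * (QC ρ x (1 / 2 - y) (-1) (1 / 2 + y)) ^ (2 : ℕ) + alC x (1 / 2 - y) (1 / 2 + y) (-1) * (QC ρ x (1 / 2 - y) (1 / 2 + y) (-1)) ^ (2 : ℕ) + alC x (1 / 2 + y) (-1) (1 / 2 - y) * (QC ρ x (1 / 2 + y) (-1) (1 / 2 - y)) ^ (2 : ℕ) + alC x (1 / 2 + y) (1 / 2 - y) (-1) * (QC ρ x (1 / 2 + y) (1 / 2 - y) (-1)) ^ (2 : ℕ) =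
      6 * ρ * sigC y * gamC y * h71C ρ x := by
  simp only [alC, QC, LC, hrC, lamC, h31C, h61C, h71C, ssC, c3C, rg3C, sigC, gamC]
  ring

end Vale.Agent.Lib.P154
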