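import Mathlib
import Vale.Agent.Lib.P154.TMCheck
import Vale.Agent.Lib.P154.ChartSum

/-!
Closed forms for the real mirrors of the Taylor model programs.
-/

namespace Vale.Agent.Lib.P154

lemma uPart_eq (R X : ℝ) :
    uPartR R X =
      (sigC X, sigC X / 3, rg3C R X, R ^ (2 : ℕ), ssC R X, c3C R X, ssC R X / 3, 1 - R, 1 + R * (1 / 2 - X), 1 + R * (1 / 2 + X), 1 - ssC R X / 2 + c3C R X, R * sigC X) := by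
  unfold uPartR
  repeat' refine Prod.ext ?_ ?_
  all_goals (dsimp only; (try simp only [sigC, rg3C, ssC, c3C]); (try push_cast); (try ring))

lemma vPart_eq (Q Y : ℝ) :
    vPartR Q Y =
      (Y ^ (2 : ℕ), sigC Y, Q ^ (2 : ℕ), Q ^ (2 : ℕ) * sigC Y, Q * (Y ^ (2 : ℕ) - 1 / 4), Q ^ (2 : ℕ) * (Q * (Y ^ (2 : ℕ) - 1 / 4)), 1 - Q ^ (2 : ℕ) * sigC Y / 2 + Q ^ (2 : ℕ) * (Q * (Y ^ (2 : ℕ) - 1 / 4)), (543 / 8192) * (Q ^ (2 : ℕ) * sigC Y * (1 - (98283 / 1048576) * (Q ^ (2 : ℕ) * sigC Y))), (Q ^ (2 : ℕ)) ^ (2 : ℕ)) := by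
  unfold vPartR
  repeat' refine Prod.ext ?_ ?_
  all_goals (dsimp only; (try simp only [sigC]); (try push_cast); (try ring))

lemma alphas_eq (X Y : ℝ) :
    alphasR X Y =
      (alC X (-1) (1 / 2 - Y) (1 / 2 + Y), alC X (-1) (1 / 2 + Y) (1 / 2 - Y), alC X (1 / 2 - Y) (-1) (1 / 2 + Y), alC X (1 / 2 - Y) (1 / 2 + Y) (-1), alC X (1 / 2 + Y) (-1) (1 / 2 - Y), alC X (1 / 2 + Y) (1 / 2 - Y) (-1)) := by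
  unfold alphasR
  repeat' refine Prod.ext ?_ ?_
  all_goals (dsimp only; (try simp only [alC]); (try push_cast); (try ring))

lemma matF_eq (U0 U1 U2 X Y y2 : ℝ) :
    matFR U0 U1 U2 X Y y2 =
      (U0 ^ (2 : ℕ) * (-1) + U1 ^ (2 : ℕ) * (1 / 2 - Y) + U2 ^ (2 : ℕ) * (1 / 2 + Y), U0 ^ (2 : ℕ) * 1 + U1 ^ (2 : ℕ) * (1 / 4 - Y + y2) + U2 ^ (2 : ℕ) * (1 / 4 + Y + y2), (-U0) * (-1) + ((1 / 2 - X) * U1) * (1 / 2 - Y) + ((1 / 2 + X) * U2) * (1 / 2 + Y), U0 ^ (2 : ℕ) * (-1) + U1 ^ (2 : ℕ) * (1 / 2 + Y) + U2 ^ (2 : ℕ) * (1 / 2 - Y), U0 ^ (2 : ℕ) * 1 + U1 ^ (2 : ℕ) * (1 / 4 + Y + y2) + U2 ^ (2 : ℕ) * (1 / 4 - Y + y2), (-U0) * (-1) + ((1 / 2 - X) * U1) * (1 / 2 + Y) + ((1 / 2 + X) * U2) * (1 / 2 - Y), U0 ^ (2 : ℕ) * (1 / 2 - Y) + U1 ^ (2 :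 ℕ) * (-1) + U2 ^ (2 : ℕ) * (1 / 2 + Y), U0 ^ (2 : ℕ) * (1 / 4 - Y + y2) + U1 ^ (2 : ℕ) * 1 + U2 ^ (2 : ℕ) * (1 / 4 + Y + y2), (-U0) * (1 / 2 - Y) + ((1 / 2 - X) * U1) * (-1) + ((1 / 2 + X) * U2) * (1 / 2 + Y), U0 ^ (2 : ℕ) * (1 / 2 - Y) + U1 ^ (2 : ℕ) * (1 / 2 + Y) + U2 ^ (2 : ℕ) * (-1), U0 ^ (2 : ℕ) * (1 / 4 - Y + y2) + U1 ^ (2 : ℕ) * (1 / 4 + Y + y2) + U2 ^ (2 : ℕ) * 1, (-U0) * (1 / 2 - Y) + ((1 / 2 - X) * U1) * (1 / 2 + Y) + ((1 / 2 + X) * U2) * (-1), U0 ^ (2 : ℕ) * (1 / 2 + Y) + U1 ^ (2 : ℕ) * (-1) + U2 ^ (2 : ℕ) * (1 / 2 - Y), U0 ^ (2 : ℕ) * (1 / 4 + Y + y2) + U1 ^ (2 : ℕ) * 1 + U2 ^ (2 : ℕ) * (1 / 4 - Y + y2), (-U0) * (1 / 2 + Y) + ((1 / 2 - X) * U1) * (-1) + ((1 / 2 + X) * U2) * (1 / 2 - Y), U0 ^ (2 : ℕ) * (1 / 2 + Y) +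 U1 ^ (2 : ℕ) * (1 / 2 - Y) + U2 ^ (2 : ℕ) * (-1), U0 ^ (2 : ℕ) * (1 / 4 + Y + y2) + U1 ^ (2 : ℕ) * (1 / 4 - Y + y2) + U2 ^ (2 : ℕ) * 1, (-U0) * (1 / 2 + Y) + ((1 / 2 - X) * U1) * (1 / 2 - Y) + ((1 / 2 + X) * U2) * (-1), U0 ^ (2 : ℕ) + U1 ^ (2 : ℕ) + U2 ^ (2 : ℕ)) := by
  unfold matFR
  repeat' refine Prod.ext ?_ ?_
  all_goals (dsimp only; (try simp only [sigC]); (try push_cast); (try ring))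

lemma matG_eq (U0 U1 U2 X Y y2 : ℝ) :
    matGR U0 U1 U2 X Y y2 =
      (U0 ^ (2 : ℕ) * (-1) + U1 ^ (2 : ℕ) * (1 / 2 - Y) + U2 ^ (2 : ℕ) * (1 / 2 + Y), U0 ^ (2 : ℕ) * 1 + U1 ^ (2 : ℕ) * (1 / 4 - Y + y2) + U2 ^ (2 : ℕ) * (1 / 4 + Y + y2), U0 ^ (2 : ℕ) * (-1) + U1 ^ (2 : ℕ) * (1 / 2 + Y) + U2 ^ (2 : ℕ) * (1 / 2 - Y), U0 ^ (2 : ℕ) * 1 + U1 ^ (2 : ℕ) * (1 / 4 + Y + y2) + U2 ^ (2 : ℕ) * (1 / 4 - Y + y2), U0 ^ (2 : ℕ) * (1 / 2 - Y) + U1 ^ (2 : ℕ) * (-1) + U2 ^ (2 : ℕ) * (1 / 2 + Y), U0 ^ (2 : ℕ) * (1 / 4 - Y + y2) + U1 ^ (2 : ℕ) * 1 + U2 ^ (2 : ℕ) * (1 / 4 + Y + y2), U0 ^ (2 : ℕ) * (1 / 2 - Y) + U1 ^ (2 : ℕ) * (1 / 2 + Y) + U2 ^ (2 : ℕ) * (-1), U0 ^ (2 : ℕ) * (1 / 4 - Y + y2) + U1 ^ (2 : ℕ) * (1 / 4 + Y + y2) + U2 ^ (2 : ℕ) * 1, U0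 ^ (2 : ℕ) * (1 / 2 + Y) + U1 ^ (2 : ℕ) * (-1) + U2 ^ (2 : ℕ) * (1 / 2 - Y), U0 ^ (2 : ℕ) * (1 / 4 + Y + y2) + U1 ^ (2 : ℕ) * 1 + U2 ^ (2 : ℕ) * (1 / 4 - Y + y2), U0 ^ (2 : ℕ) * (1 / 2 + Y) + U1 ^ (2 : ℕ) * (1 / 2 - Y) + U2 ^ (2 : ℕ) * (-1), U0 ^ (2 : ℕ) * (1 / 4 + Y + y2) + U1 ^ (2 : ℕ) * (1 / 4 - Y + y2) + U2 ^ (2 : ℕ) * 1, U0 ^ (2 : ℕ) + U1 ^ (2 : ℕ) + U2 ^ (2 : ℕ)) := by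
  unfold matGR
  repeat' refine Prod.ext ?_ ?_
  all_goals (dsimp only; (try simp only [sigC]); (try push_cast); (try ring))

lemma permA_eq (R Q al : ℝ) :
    permAR R Q al =
      (R * al, 1 + Q * (R * al)) := by
  unfold permAR
  repeat' refine Prod.ext ?_ ?_
  all_goals (dsimp only; (try simp only [sigC]); (try push_cast); (try ring))

lemma permB_eq (ra m al W0 Y0 P1 P2 Y1 : ℝ) :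
    permBR ra m al W0 Y0 P1 P2 Y1 =
      (al ^ (2 : ℕ) * (P2 - 2 * (ra * P1) + ra ^ (2 : ℕ) * W0) * m⁻¹, al ^ (2 : ℕ) * (m⁻¹ ^ (2 : ℕ) + 2 * m⁻¹), m⁻¹ * (Y1 - ra * Y0) ^ (2 : ℕ), al * (Y1 - ra * Y0) * ((P2 - 2 * (ra * P1) + ra ^ (2 : ℕ) * W0) * (m⁻¹ ^ (2 : ℕ) + m⁻¹)), al ^ (2 : ℕ) * (P2 - 2 * (ra * P1) + ra ^ (2 : ℕ) * W0) * (P2 - 2 * (ra * P1) + ra ^ (2 : ℕ) * W0) * (m⁻¹ ^ (3 : ℕ) + 2 * m⁻¹ ^ (2 : ℕ) + 3 * m⁻¹)) := by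
  unfold permBR
  repeat' refine Prod.ext ?_ ?_
  all_goals (dsimp only; (try simp only [sigC]); (try push_cast); (try ring))

lemma permG_eq (ra m al W0 P1 P2 : ℝ) :
    permGR ra m al W0 P1 P2 = al ^ (2 : ℕ) * (P2 - 2 * (ra * P1) + ra ^ (2 : ℕ) * W0) * m⁻¹ := by
  unfold permGR
  dsimp only
  push_cast
  ring

lemma hPart_eq (ρ x : ℝ) :
    hPartR (sigC x) (sigC x / 3) (rg3C ρ x) (ssC ρ x) (ssC ρ x / 3) =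
      (hrC ρ x, lamC ρ x, sigC x * ssC ρ x * (1 - (3 / 64) * ssC ρ x)) := by
  unfold hPartR
  repeat' refine Prod.ext ?_ ?_
  all_goals (dsimp only; (try simp only [hrC, lamC]); (try push_cast); (try ring))

lemma polys_eq (ρ x : ℝ) :
    polysR (sigC x) (sigC x / 3) (rg3C ρ x) (c3C ρ x) (ssC ρ x / 3) =
      (h31C ρ x, h61C ρ x, h71C ρ x) := by
  unfold polysR
  repeat' refine Prod.ext ?_ ?_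
  all_goals (dsimp only; (try simp only [h31C, h61C, h71C]); (try push_cast); (try ring))

lemma finalF_eq (sig rg3 r2 s G Hr Lam1 f2 h31 h61 h71 rp2 S C3 Gw fS r4 tau B1 B2 B4 B5 B6 : ℝ) :
    finalFR sig rg3 r2 s G Hr Lam1 f2 h31 h61 h71 rp2 S C3 Gw fS r4 tau B1 B2 B4 B5 B6 =
      (3 / 2) * ((Hr - tau * Lam1 + rp2 * B1) + sig / 2 - rg3) -
      (3 / 64) * (sig * (2 - (9 / 64) * s) * (1 + r2 * (Hr - tau * Lam1 + rp2 * B1))) +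
      3 * (G * Gw * B2) + (rg3 - sig / 2) * fS +
      (5 / 32) * (G * sig * (tau - fS)) +
      (5 / 16) * (3 * rg3 - (3 / 64) * f2) -
      (3 / 64) * (4 * B6 + 4 * (tau * h31) - 4 * (rp2 * B4) + S * h61 - 9 * C3 * h71 + r4 * B5) := by
  unfold finalFR
  dsimp only
  push_cast
  ring

lemma qf_0 (ρ x y : ℝ) :
    (1 - ρ) ^ (2 : ℕ) * 1 + (1 + ρ * (1 / 2 - x)) ^ (2 : ℕ) * (1 / 4 - y + y ^ (2 : ℕ)) + (1 + ρ * (1 / 2 + x)) ^ (2 : ℕ) * (1 / 4 + y + y ^ (2 : ℕ)) - 2 * ((ρ * (alC x (-1) (1 / 2 - y) (1 / 2 + y))) * ((1 - ρ) ^ (2 : ℕ) * (-1) + (1 + ρ * (1 / 2 - x)) ^ (2 : ℕ) * (1 / 2 - y) + (1 + ρ * (1 / 2 + x)) ^ (2 : ℕ) * (1 / 2 + y))) + (ρ * (alC x (-1) (1 / 2 - y) (1 / 2 + y))) ^ (2 : ℕ) * ((1 - ρ) ^ (2 : ℕ) + (1 + ρ * (1 / 2 - x))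 ^ (2 : ℕ) + (1 + ρ * (1 / 2 + x)) ^ (2 : ℕ)) = (QC ρ x (-1) (1 / 2 - y) (1 / 2 + y)) := by
  simp only [QC, alC]
  ring

lemma lf_0 (ρ x y : ℝ) :
    (-(1 - ρ)) * (-1) + ((1 / 2 - x) * (1 + ρ * (1 / 2 - x))) * (1 / 2 - y) + ((1 / 2 + x) * (1 + ρ * (1 / 2 + x))) * (1 / 2 + y) - (ρ * (alC x (-1) (1 / 2 - y) (1 / 2 + y))) * (ρ * sigC x) = (LC ρ x (-1) (1 / 2 - y) (1 / 2 + y)) := by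
  simp only [LC, alC, sigC]
  ring

lemma qf_1 (ρ x y : ℝ) :
    (1 - ρ) ^ (2 : ℕ) * 1 + (1 + ρ * (1 / 2 - x)) ^ (2 : ℕ) * (1 / 4 + y + y ^ (2 : ℕ)) + (1 + ρ * (1 / 2 + x)) ^ (2 : ℕ) * (1 / 4 - y + y ^ (2 : ℕ)) - 2 * ((ρ * (alC x (-1) (1 / 2 + y) (1 / 2 - y))) * ((1 - ρ) ^ (2 : ℕ) * (-1) + (1 + ρ * (1 / 2 - x)) ^ (2 : ℕ) * (1 / 2 + y) + (1 + ρ * (1 / 2 + x)) ^ (2 : ℕ) * (1 / 2 - y))) + (ρ * (alC x (-1) (1 / 2 + y) (1 / 2 - y))) ^ (2 : ℕ) * ((1 - ρ) ^ (2 : ℕ) + (1 + ρ * (1 / 2 - x)) ^ (2 : ℕ) + (1 + ρ * (1 / 2 + x)) ^ (2 : ℕ)) = (QC ρ x (-1) (1 / 2 + y) (1 / 2 - y)) := by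
  simp only [QC, alC]
  ring

lemma lf_1 (ρ x y : ℝ) :
    (-(1 - ρ)) * (-1) + ((1 / 2 - x) * (1 + ρ * (1 / 2 - x))) * (1 / 2 + y) + ((1 / 2 + x) * (1 + ρ * (1 / 2 + x))) * (1 / 2 - y) - (ρ * (alC x (-1) (1 / 2 + y) (1 / 2 - y))) * (ρ * sigC x) = (LC ρ x (-1) (1 / 2 + y) (1 / 2 - y)) := by
  simp only [LC, alC, sigC]
  ring

lemma qf_2 (ρ x y : ℝ) :
    (1 - ρ) ^ (2 : ℕ) * (1 / 4 - y + y ^ (2 : ℕ)) + (1 + ρ * (1 / 2 - x)) ^ (2 : ℕ) * 1 + (1 + ρ * (1 / 2 + x)) ^ (2 : ℕ) * (1 / 4 + y + y ^ (2 : ℕ)) - 2 * ((ρ * (alC x (1 / 2 - y) (-1) (1 / 2 + y))) * ((1 - ρ) ^ (2 : ℕ) * (1 / 2 - y) + (1 + ρ * (1 / 2 - x)) ^ (2 : ℕ) * (-1) + (1 + ρ * (1 / 2 + x)) ^ (2 : ℕ) * (1 / 2 + y))) + (ρ * (alC x (1 / 2 - y) (-1) (1 / 2 + y))) ^ (2 : ℕ) * ((1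 - ρ) ^ (2 : ℕ) + (1 + ρ * (1 / 2 - x)) ^ (2 : ℕ) + (1 + ρ * (1 / 2 + x)) ^ (2 : ℕ)) = (QC ρ x (1 / 2 - y) (-1) (1 / 2 + y)) := by
  simp only [QC, alC]
  ring

lemma lf_2 (ρ x y : ℝ) :
    (-(1 - ρ)) * (1 / 2 - y) + ((1 / 2 - x) * (1 + ρ * (1 / 2 - x))) * (-1) + ((1 / 2 + x) * (1 + ρ * (1 / 2 + x))) * (1 / 2 + y) - (ρ * (alC x (1 / 2 - y) (-1) (1 / 2 + y))) * (ρ * sigC x) = (LC ρ x (1 / 2 - y) (-1) (1 / 2 + y)) := by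
  simp only [LC, alC, sigC]
  ring

lemma qf_3 (ρ x y : ℝ) :
    (1 - ρ) ^ (2 : ℕ) * (1 / 4 - y + y ^ (2 : ℕ)) + (1 + ρ * (1 / 2 - x)) ^ (2 : ℕ) * (1 / 4 + y + y ^ (2 : ℕ)) + (1 + ρ * (1 / 2 + x)) ^ (2 : ℕ) * 1 - 2 * ((ρ * (alC x (1 / 2 - y) (1 / 2 + y) (-1))) * ((1 - ρ) ^ (2 : ℕ) * (1 / 2 - y) + (1 + ρ * (1 / 2 - x)) ^ (2 : ℕ) * (1 / 2 + y) + (1 + ρ * (1 / 2 + x)) ^ (2 : ℕ) * (-1))) + (ρ * (alC x (1 / 2 - y) (1 / 2 + y) (-1))) ^ (2 : ℕ) * ((1 - ρ) ^ (2 : ℕ) + (1 + ρ * (1 / 2 - x)) ^ (2 : ℕ) + (1 + ρ * (1 / 2 + x)) ^ (2 : ℕ)) = (QC ρ x (1 / 2 - y) (1 / 2 + y) (-1)) := by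
  simp only [QC, alC]
  ring

lemma lf_3 (ρ x y : ℝ) :
    (-(1 - ρ)) * (1 / 2 - y) + ((1 / 2 - x) * (1 + ρ * (1 / 2 - x))) * (1 / 2 + y) + ((1 / 2 + x) * (1 + ρ * (1 / 2 + x))) * (-1) - (ρ * (alC x (1 / 2 - y) (1 / 2 + y) (-1))) * (ρ * sigC x) = (LC ρ x (1 / 2 - y) (1 / 2 + y) (-1)) := by
  simp only [LC, alC, sigC]
  ring

lemma qf_4 (ρ x y : ℝ) :
    (1 - ρ) ^ (2 : ℕ) * (1 / 4 + y + y ^ (2 : ℕ)) + (1 + ρ * (1 / 2 - x)) ^ (2 : ℕ) * 1 + (1 + ρ * (1 / 2 + x)) ^ (2 : ℕ) * (1 / 4 - y + y ^ (2 : ℕ)) - 2 * ((ρ * (alC x (1 / 2 + y) (-1) (1 / 2 - y))) * ((1 - ρ) ^ (2 : ℕ) * (1 / 2 + y) + (1 + ρ * (1 / 2 - x)) ^ (2 : ℕ) * (-1) + (1 + ρ * (1 / 2 + x)) ^ (2 : ℕ) * (1 / 2 - y))) + (ρ * (alC x (1 / 2 + y) (-1) (1 / 2 - y))) ^ (2 : ℕ) * ((1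 - ρ) ^ (2 : ℕ) + (1 + ρ * (1 / 2 - x)) ^ (2 : ℕ) + (1 + ρ * (1 / 2 + x)) ^ (2 : ℕ)) = (QC ρ x (1 / 2 + y) (-1) (1 / 2 - y)) := by
  simp only [QC, alC]
  ring

lemma lf_4 (ρ x y : ℝ) :
    (-(1 - ρ)) * (1 / 2 + y) + ((1 / 2 - x) * (1 + ρ * (1 / 2 - x))) * (-1) + ((1 / 2 + x) * (1 + ρ * (1 / 2 + x))) * (1 / 2 - y) - (ρ * (alC x (1 / 2 + y) (-1) (1 / 2 - y))) * (ρ * sigC x) = (LC ρ x (1 / 2 + y) (-1) (1 / 2 - y)) := by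
  simp only [LC, alC, sigC]
  ring

lemma qf_5 (ρ x y : ℝ) :
    (1 - ρ) ^ (2 : ℕ) * (1 / 4 + y + y ^ (2 : ℕ)) + (1 + ρ * (1 / 2 - x)) ^ (2 : ℕ) * (1 / 4 - y + y ^ (2 : ℕ)) + (1 + ρ * (1 / 2 + x)) ^ (2 : ℕ) * 1 - 2 * ((ρ * (alC x (1 / 2 + y) (1 / 2 - y) (-1))) * ((1 - ρ) ^ (2 : ℕ) * (1 / 2 + y) + (1 + ρ * (1 / 2 - x)) ^ (2 : ℕ) * (1 / 2 - y) + (1 + ρ * (1 / 2 + x)) ^ (2 : ℕ) * (-1))) + (ρ * (alC x (1 / 2 + y) (1 / 2 - y) (-1))) ^ (2 : ℕ) * ((1 - ρ) ^ (2 : ℕ) + (1 + ρ * (1 / 2 - x)) ^ (2 : ℕ) + (1 + ρ * (1 / 2 + x)) ^ (2 : ℕ)) = (QC ρ x (1 / 2 + y) (1 / 2 - y) (-1)) := by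
  simp only [QC, alC]
  ring

lemma lf_5 (ρ x y : ℝ) :
    (-(1 - ρ)) * (1 / 2 + y) + ((1 / 2 - x) * (1 + ρ * (1 / 2 - x))) * (1 / 2 - y) + ((1 / 2 + x) * (1 + ρ * (1 / 2 + x))) * (-1) - (ρ * (alC x (1 / 2 + y) (1 / 2 - y) (-1))) * (ρ * sigC x) = (LC ρ x (1 / 2 + y) (1 / 2 - y) (-1)) := by
  simp only [LC, alC, sigC]
  ring

/-- Closed form of the program `progFR`. -/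
theorem progF_eq (ρ x r y : ℝ) :
    progFR ρ x r y = (1 + r * (ρ * alC x (-1) (1 / 2 - y) (1 / 2 + y)), 1 + r * (ρ * alC x (-1) (1 / 2 + y) (1 / 2 - y)), 1 + r * (ρ * alC x (1 / 2 - y) (-1) (1 / 2 + y)), 1 + r * (ρ * alC x (1 / 2 - y) (1 / 2 + y) (-1)), 1 + r * (ρ * alC x (1 / 2 + y) (-1) (1 / 2 - y)), 1 + r * (ρ * alC x (1 / 2 + y) (1 / 2 - y) (-1)), sigC y,
      finalFR (sigC x) (rg3C ρ x) (ρ ^ (2 : ℕ)) (ssC ρ x) (1 - ssC ρ x / 2 + c3C ρ x) (hrC ρ x) (lamC ρ x)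
        (sigC x * ssC ρ x * (1 - (3 / 64) * ssC ρ x)) (h31C ρ x) (h61C ρ x) (h71C ρ x) (r ^ (2 : ℕ)) (r ^ (2 : ℕ) * sigC y)
        (r ^ (2 : ℕ) * (r * (y ^ (2 : ℕ) - 1 / 4))) (1 - r ^ (2 : ℕ) * sigC y / 2 + r ^ (2 : ℕ) * (r * (y ^ (2 : ℕ) - 1 / 4)))
        ((543 / 8192) * (r ^ (2 : ℕ) * sigC y * (1 - (98283 / 1048576) * (r ^ (2 : ℕ) * sigC y)))) ((r ^ (2 : ℕ)) ^ (2 : ℕ))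
        (((3 : ℕ) : ℝ) * (r * (y ^ (2 : ℕ) - 1 / 4) * (sigC y)⁻¹))
        (((sigC y)⁻¹ / 2 ^ (1 : ℕ) / 3) * ((alC x (-1) (1 / 2 - y) (1 / 2 + y)) ^ (2 : ℕ) * (QC ρ x (-1) (1 / 2 - y) (1 / 2 + y)) * (1 + r * (ρ * alC x (-1) (1 / 2 - y) (1 / 2 + y)))⁻¹ + (alC x (-1) (1 / 2 + y) (1 / 2 - y)) ^ (2 : ℕ) * (QC ρ x (-1) (1 / 2 + y) (1 / 2 - y)) * (1 + r * (ρ * alC x (-1) (1 / 2 + y) (1 / 2 - y)))⁻¹ + (alC x (1 / 2 - y) (-1) (1 / 2 + y)) ^ (2 : ℕ) * (QC ρ x (1 / 2 - y) (-1) (1 / 2 + y)) * (1 + r * (ρ * alC x (1 / 2 - y) (-1) (1 / 2 + y)))⁻¹ + (alC x (1 / 2 - y) (1 / 2 + y) (-1)) ^ (2 : ℕ) * (QC ρ x (1 / 2 - y) (1 / 2 + y) (-1)) * (1 + r * (ρ * alC x (1 / 2 - y) (1 / 2 + y) (-1)))⁻¹ + (alC x (1 / 2 + y) (-1) (1 / 2 - y)) ^ (2 : ℕ) * (QC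 ρ x (1 / 2 + y) (-1) (1 / 2 - y)) * (1 + r * (ρ * alC x (1 / 2 + y) (-1) (1 / 2 - y)))⁻¹ + (alC x (1 / 2 + y) (1 / 2 - y) (-1)) ^ (2 : ℕ) * (QC ρ x (1 / 2 + y) (1 / 2 - y) (-1)) * (1 + r * (ρ * alC x (1 / 2 + y) (1 / 2 - y) (-1)))⁻¹))
        (((sigC y)⁻¹ / 2 ^ (1 : ℕ) / 3) * ((alC x (-1) (1 / 2 - y) (1 / 2 + y)) ^ (2 : ℕ) * ((1 + r * (ρ * alC x (-1) (1 / 2 - y) (1 / 2 + y)))⁻¹ ^ (2 : ℕ) + 2 * (1 + r * (ρ * alC x (-1) (1 / 2 - y) (1 / 2 + y)))⁻¹) + (alC x (-1) (1 / 2 + y) (1 / 2 - y)) ^ (2 : ℕ) * ((1 + r * (ρ * alC x (-1) (1 / 2 + y) (1 / 2 - y)))⁻¹ ^ (2 : ℕ) + 2 * (1 + r * (ρ * alC x (-1) (1 / 2 + y) (1 / 2 - y)))⁻¹) + (alC x (1 / 2 - y) (-1) (1 / 2 + y)) ^ (2 : ℕ) * ((1 + r * (ρ * alC x (1 / 2 - y) (-1) (1 / 2 + y)))⁻¹ ^ (2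 : ℕ) + 2 * (1 + r * (ρ * alC x (1 / 2 - y) (-1) (1 / 2 + y)))⁻¹) + (alC x (1 / 2 - y) (1 / 2 + y) (-1)) ^ (2 : ℕ) * ((1 + r * (ρ * alC x (1 / 2 - y) (1 / 2 + y) (-1)))⁻¹ ^ (2 : ℕ) + 2 * (1 + r * (ρ * alC x (1 / 2 - y) (1 / 2 + y) (-1)))⁻¹) + (alC x (1 / 2 + y) (-1) (1 / 2 - y)) ^ (2 : ℕ) * ((1 + r * (ρ * alC x (1 / 2 + y) (-1) (1 / 2 - y)))⁻¹ ^ (2 : ℕ) + 2 * (1 + r * (ρ * alC x (1 / 2 + y) (-1) (1 / 2 - y)))⁻¹) + (alC x (1 / 2 + y) (1 / 2 - y) (-1)) ^ (2 : ℕ) * ((1 + r * (ρ * alC x (1 / 2 + y) (1 / 2 - y) (-1)))⁻¹ ^ (2 : ℕ) + 2 * (1 + r * (ρ * alC x (1 / 2 + y) (1 / 2 - y) (-1)))⁻¹)))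
        (((sigC y)⁻¹ / 2 ^ (1 : ℕ) / 3) * ((alC x (-1) (1 / 2 - y) (1 / 2 + y)) * (LC ρ x (-1) (1 / 2 - y) (1 / 2 + y)) * ((QC ρ x (-1) (1 / 2 - y) (1 / 2 + y)) * ((1 + r * (ρ * alC x (-1) (1 / 2 - y) (1 / 2 + y)))⁻¹ ^ (2 : ℕ) + (1 + r * (ρ * alC x (-1) (1 / 2 - y) (1 / 2 + y)))⁻¹)) + (alC x (-1) (1 / 2 + y) (1 / 2 - y)) * (LC ρ x (-1) (1 / 2 + y) (1 / 2 - y)) * ((QC ρ x (-1) (1 / 2 + y) (1 / 2 - y)) * ((1 + r * (ρ * alC x (-1) (1 / 2 + y) (1 / 2 - y)))⁻¹ ^ (2 : ℕ) + (1 + r * (ρ * alC x (-1) (1 / 2 + y) (1 / 2 - y)))⁻¹)) + (alC x (1 / 2 - y) (-1) (1 / 2 + y)) * (LC ρ x (1 / 2 - y) (-1) (1 / 2 + y)) * ((QC ρ x (1 / 2 - y) (-1) (1 / 2 + y)) * ((1 + r * (ρ * alC x (1 / 2 - y) (-1) (1 / 2 + y)))⁻¹ ^ (2 : ℕ) + (1 + r * (ρ * alC x (1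 / 2 - y) (-1) (1 / 2 + y)))⁻¹)) + (alC x (1 / 2 - y) (1 / 2 + y) (-1)) * (LC ρ x (1 / 2 - y) (1 / 2 + y) (-1)) * ((QC ρ x (1 / 2 - y) (1 / 2 + y) (-1)) * ((1 + r * (ρ * alC x (1 / 2 - y) (1 / 2 + y) (-1)))⁻¹ ^ (2 : ℕ) + (1 + r * (ρ * alC x (1 / 2 - y) (1 / 2 + y) (-1)))⁻¹)) + (alC x (1 / 2 + y) (-1) (1 / 2 - y)) * (LC ρ x (1 / 2 + y) (-1) (1 / 2 - y)) * ((QC ρ x (1 / 2 + y) (-1) (1 / 2 - y)) * ((1 + r * (ρ * alC x (1 / 2 + y) (-1) (1 / 2 - y)))⁻¹ ^ (2 : ℕ) + (1 + r * (ρ * alC x (1 / 2 + y) (-1) (1 / 2 - y)))⁻¹)) + (alC x (1 / 2 + y) (1 / 2 - y) (-1)) * (LC ρ x (1 / 2 + y) (1 / 2 - y) (-1)) * ((QC ρ x (1 / 2 + y) (1 / 2 - y) (-1)) * ((1 + r * (ρ * alC x (1 / 2 + y) (1 / 2 - y) (-1)))⁻¹ ^ (2 : ℕ) + (1 + r * (ρ * alC x (1 / 2 + y)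 (1 / 2 - y) (-1)))⁻¹))))
        (((sigC y)⁻¹ / 2 ^ (1 : ℕ) / 3) * ((alC x (-1) (1 / 2 - y) (1 / 2 + y)) ^ (2 : ℕ) * (QC ρ x (-1) (1 / 2 - y) (1 / 2 + y)) * (QC ρ x (-1) (1 / 2 - y) (1 / 2 + y)) * ((1 + r * (ρ * alC x (-1) (1 / 2 - y) (1 / 2 + y)))⁻¹ ^ (3 : ℕ) + 2 * (1 + r * (ρ * alC x (-1) (1 / 2 - y) (1 / 2 + y)))⁻¹ ^ (2 : ℕ) + 3 * (1 + r * (ρ * alC x (-1) (1 / 2 - y) (1 / 2 + y)))⁻¹) + (alC x (-1) (1 / 2 + y) (1 / 2 - y)) ^ (2 : ℕ) * (QC ρ x (-1) (1 / 2 + y) (1 / 2 - y)) * (QC ρ x (-1) (1 / 2 + y) (1 / 2 - y)) * ((1 + r * (ρ * alC x (-1) (1 / 2 + y) (1 / 2 - y)))⁻¹ ^ (3 : ℕ) + 2 * (1 + r * (ρ * alC x (-1) (1 / 2 + y) (1 / 2 - y)))⁻¹ ^ (2 : ℕ) + 3 * (1 + r * (ρ * alC x (-1) (1 / 2 + y) (1 / 2 - y)))⁻¹) + (alC x (1 / 2 - y) (-1)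 (1 / 2 + y)) ^ (2 : ℕ) * (QC ρ x (1 / 2 - y) (-1) (1 / 2 + y)) * (QC ρ x (1 / 2 - y) (-1) (1 / 2 + y)) * ((1 + r * (ρ * alC x (1 / 2 - y) (-1) (1 / 2 + y)))⁻¹ ^ (3 : ℕ) + 2 * (1 + r * (ρ * alC x (1 / 2 - y) (-1) (1 / 2 + y)))⁻¹ ^ (2 : ℕ) + 3 * (1 + r * (ρ * alC x (1 / 2 - y) (-1) (1 / 2 + y)))⁻¹) + (alC x (1 / 2 - y) (1 / 2 + y) (-1)) ^ (2 : ℕ) * (QC ρ x (1 / 2 - y) (1 / 2 + y) (-1)) * (QC ρ x (1 / 2 - y) (1 / 2 + y) (-1)) * ((1 + r * (ρ * alC x (1 / 2 - y) (1 / 2 + y) (-1)))⁻¹ ^ (3 : ℕ) + 2 * (1 + r * (ρ * alC x (1 / 2 - y) (1 / 2 + y) (-1)))⁻¹ ^ (2 : ℕ) + 3 * (1 + r * (ρ * alC x (1 / 2 - y) (1 / 2 + y) (-1)))⁻¹) + (alC x (1 / 2 + y) (-1) (1 / 2 - y)) ^ (2 : ℕ) * (QC ρ x (1 / 2 + y) (-1) (1 / 2 - y)) * (QC ρ x (1 / 2 + y) (-1)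 (1 / 2 - y)) * ((1 + r * (ρ * alC x (1 / 2 + y) (-1) (1 / 2 - y)))⁻¹ ^ (3 : ℕ) + 2 * (1 + r * (ρ * alC x (1 / 2 + y) (-1) (1 / 2 - y)))⁻¹ ^ (2 : ℕ) + 3 * (1 + r * (ρ * alC x (1 / 2 + y) (-1) (1 / 2 - y)))⁻¹) + (alC x (1 / 2 + y) (1 / 2 - y) (-1)) ^ (2 : ℕ) * (QC ρ x (1 / 2 + y) (1 / 2 - y) (-1)) * (QC ρ x (1 / 2 + y) (1 / 2 - y) (-1)) * ((1 + r * (ρ * alC x (1 / 2 + y) (1 / 2 - y) (-1)))⁻¹ ^ (3 : ℕ) + 2 * (1 + r * (ρ * alC x (1 / 2 + y) (1 / 2 - y) (-1)))⁻¹ ^ (2 : ℕ) + 3 * (1 + r * (ρ * alC x (1 / 2 + y) (1 / 2 - y) (-1)))⁻¹)))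
        (((sigC y)⁻¹ / 2 ^ (1 : ℕ) / 3) * ((1 + r * (ρ * alC x (-1) (1 / 2 - y) (1 / 2 + y)))⁻¹ * (LC ρ x (-1) (1 / 2 - y) (1 / 2 + y)) ^ (2 : ℕ) + (1 + r * (ρ * alC x (-1) (1 / 2 + y) (1 / 2 - y)))⁻¹ * (LC ρ x (-1) (1 / 2 + y) (1 / 2 - y)) ^ (2 : ℕ) + (1 + r * (ρ * alC x (1 / 2 - y) (-1) (1 / 2 + y)))⁻¹ * (LC ρ x (1 / 2 - y) (-1) (1 / 2 + y)) ^ (2 : ℕ) + (1 + r * (ρ * alC x (1 / 2 - y) (1 / 2 + y) (-1)))⁻¹ * (LC ρ x (1 / 2 - y) (1 / 2 + y) (-1)) ^ (2 : ℕ) + (1 + r * (ρ * alC x (1 / 2 + y) (-1) (1 / 2 - y)))⁻¹ * (LC ρ x (1 / 2 + y) (-1) (1 / 2 - y)) ^ (2 : ℕ) + (1 + r * (ρ * alC x (1 / 2 + y) (1 / 2 - y) (-1)))⁻¹ * (LC ρ x (1 / 2 + y) (1 / 2 - y) (-1)) ^ (2 : ℕ)))) := by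
  simp only [progFR, uPart_eq, vPart_eq, alphas_eq, permA_eq, hPart_eq, matF_eq, permB_eq, polys_eq]
  simp only [qf_0, qf_1, qf_2, qf_3, qf_4, qf_5, lf_0, lf_1, lf_2, lf_3, lf_4, lf_5]

/-- Closed form of the program `progGR`. -/
theorem progG_eq (ρ x r y : ℝ) :
    progGR ρ x r y = (1 + r * (ρ * alC x (-1) (1 / 2 - y) (1 / 2 + y)), 1 + r * (ρ * alC x (-1) (1 / 2 + y) (1 / 2 - y)), 1 + r * (ρ * alC x (1 / 2 - y) (-1) (1 / 2 + y)), 1 + r * (ρ * alC x (1 / 2 - y) (1 / 2 + y) (-1)), 1 + r * (ρ * alC x (1 / 2 + y) (-1) (1 / 2 - y)), 1 + r * (ρ * alC x (1 / 2 + y) (1 / 2 - y) (-1)), sigC y,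
      -(hrC ρ x) - (((3 : ℕ) : ℝ) / 2 ^ (4 : ℕ)) * (((3 : ℕ) : ℝ) * rg3C ρ x - (((3 : ℕ) : ℝ) / 2 ^ (6 : ℕ)) * (sigC x * ssC ρ x * (1 - (3 / 64) * ssC ρ x))) - sigC x / 2 ^ (10 : ℕ) +
        ((543 / 8192) * (r ^ (2 : ℕ) * sigC y * (1 - (98283 / 1048576) * (r ^ (2 : ℕ) * sigC y)))) * lamC ρ x -
        r ^ (2 : ℕ) * (((sigC y)⁻¹ / 2 ^ (1 : ℕ) / 3) * ((alC x (-1) (1 / 2 - y) (1 / 2 + y)) ^ (2 : ℕ) * (QC ρ x (-1) (1 / 2 - y) (1 / 2 + y)) * (1 + r * (ρ * alC x (-1) (1 / 2 - y) (1 / 2 + y)))⁻¹ + (alC x (-1) (1 / 2 + y) (1 / 2 - y)) ^ (2 : ℕ) * (QC ρ x (-1) (1 / 2 + y) (1 / 2 - y)) * (1 + r * (ρ * alC x (-1) (1 / 2 + y) (1 / 2 - y)))⁻¹ + (alC x (1 / 2 - y) (-1) (1 / 2 + y)) ^ (2 : ℕ) * (QC ρ x (1 / 2 - y) (-1) (1 / 2 + y)) * (1 + r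 * (ρ * alC x (1 / 2 - y) (-1) (1 / 2 + y)))⁻¹ + (alC x (1 / 2 - y) (1 / 2 + y) (-1)) ^ (2 : ℕ) * (QC ρ x (1 / 2 - y) (1 / 2 + y) (-1)) * (1 + r * (ρ * alC x (1 / 2 - y) (1 / 2 + y) (-1)))⁻¹ + (alC x (1 / 2 + y) (-1) (1 / 2 - y)) ^ (2 : ℕ) * (QC ρ x (1 / 2 + y) (-1) (1 / 2 - y)) * (1 + r * (ρ * alC x (1 / 2 + y) (-1) (1 / 2 - y)))⁻¹ + (alC x (1 / 2 + y) (1 / 2 - y) (-1)) ^ (2 : ℕ) * (QC ρ x (1 / 2 + y) (1 / 2 - y) (-1)) * (1 + r * (ρ * alC x (1 / 2 + y) (1 / 2 - y) (-1)))⁻¹))) := by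
  simp only [progGR, uPart_eq, vPart_eq, alphas_eq, permA_eq, hPart_eq, matG_eq, permG_eq]
  simp only [qf_0, qf_1, qf_2, qf_3, qf_4, qf_5]

end Vale.Agent.Lib.P154
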