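import Vale.Agent.Lib.P154.TMProg

/-!
Generated kernel checks of the Taylor model box tests for `F`.
-/

namespace Vale.Agent.Lib.P154

theorem chkF_13 : chk testF (CT.b (CT.d (CT.b (CT.b (CT.c CT.l (CT.d CT.l CT.l)) (CT.c CT.l (CT.a CT.l CT.l))) (CT.b (CT.c CT.l (CT.a CT.l CT.l)) (CT.c CT.l (CT.a CT.l (CT.d CT.l CT.l))))) (CT.b (CT.c (CT.b CT.l CT.l) (CT.b (CT.a CT.l CT.l) (CT.a CT.l (CT.d CT.l CT.l)))) (CT.c (CT.b CT.l (CT.a CT.l CT.l)) (CT.a (CT.b (CT.d CT.l CT.l) (CT.d CT.l CT.l)) (CT.b (CT.d CT.l CT.l) (CT.d CT.l CT.l)))))) (CT.a (CT.d (CT.b (CT.c (CT.b CT.l CT.l) (CT.b (CT.d CT.l CT.l) (CT.d CT.l CT.l))) (CT.c (CT.b CT.l CT.l) (CT.b (CT.d CT.l CT.l) (CT.d CT.l CT.l)))) (CT.b (CT.c (CT.b CT.l CT.l) (CT.b (CT.d CT.l CT.l) (CT.d CT.l CT.l))) (CT.c (CT.b CT.l CT.l) (CT.b (CT.d CT.l CT.l)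 (CT.d CT.l (CT.a CT.l CT.l)))))) (CT.d (CT.b (CT.c (CT.b CT.l CT.l) (CT.b (CT.d CT.l CT.l) (CT.d CT.l CT.l))) (CT.c (CT.b CT.l (CT.d CT.l CT.l)) (CT.b (CT.d CT.l CT.l) (CT.d CT.l (CT.a CT.l CT.l))))) (CT.b (CT.c (CT.b CT.l CT.l) (CT.b (CT.d CT.l CT.l) (CT.d CT.l (CT.b CT.l CT.l)))) (CT.c (CT.b (CT.d CT.l CT.l) (CT.a CT.l CT.l)) (CT.b (CT.d (CT.a CT.l CT.l) (CT.a CT.l CT.l)) (CT.a (CT.d CT.l CT.l) (CT.d CT.l CT.l)))))))) 0 274877906944 0 1649267441664 389231411200 389231411200 1236950581248 412316860416 = true := by decide +kernel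

theorem chkF_14 : chk testF (CT.b (CT.d (CT.b (CT.a (CT.c CT.l CT.l) (CT.c CT.l CT.l)) (CT.a (CT.c CT.l CT.l) (CT.c CT.l CT.l))) (CT.b (CT.c CT.l (CT.a CT.l (CT.d CT.l CT.l))) (CT.c CT.l (CT.a (CT.d CT.l CT.l) (CT.d CT.l CT.l))))) (CT.d (CT.a (CT.b (CT.c CT.l (CT.d CT.l CT.l)) (CT.c CT.l (CT.d CT.l CT.l))) (CT.b (CT.c CT.l (CT.d CT.l CT.l)) (CT.c CT.l (CT.d CT.l CT.l)))) (CT.a (CT.c (CT.b CT.l CT.l) (CT.b (CT.d CT.l CT.l) (CT.d CT.l CT.l))) (CT.b (CT.c CT.l (CT.d CT.l CT.l)) (CT.c CT.l (CT.d CT.l (CT.b CT.l CT.l))))))) 274877906944 274877906944 0 824633720832 389231411200 389231411200 1236950581248 412316860416 = true := by decide +kernel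

theorem chkF_15 : chk testF (CT.a (CT.b (CT.d (CT.b (CT.c CT.l (CT.d CT.l CT.l)) (CT.c CT.l (CT.d CT.l (CT.a CT.l CT.l)))) (CT.c (CT.b CT.l (CT.d CT.l CT.l)) (CT.b (CT.d (CT.b CT.l CT.l) (CT.b CT.l CT.l)) (CT.d (CT.a CT.l CT.l) (CT.a CT.l CT.l))))) (CT.d (CT.b (CT.c (CT.a CT.l CT.l) (CT.a (CT.d CT.l CT.l) (CT.d CT.l CT.l))) (CT.c (CT.a CT.l CT.l) (CT.a (CT.d CT.l CT.l) (CT.d CT.l CT.l)))) (CT.c (CT.b (CT.a CT.l CT.l) (CT.a CT.l CT.l)) (CT.b (CT.a (CT.d CT.l CT.l) (CT.d CT.l CT.l)) (CT.a (CT.d CT.l CT.l) (CT.d CT.l CT.l)))))) (CT.b (CT.d (CT.b (CT.c CT.l (CT.d CT.l (CT.b CT.l CT.l))) (CT.c (CT.a CT.l CT.l) (CT.a (CT.d CT.l CT.l) (CT.d CT.l CT.l)))) (CT.b (CT.c (CT.a CT.l CT.l) (CT.d (CT.a CT.l CT.l) (CT.a CT.l CT.l))) (CT.c (CT.a CT.l CT.l) (CT.a (CT.d CT.l CT.l) (CT.d CT.l CT.l))))) (CT.d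 (CT.b (CT.a (CT.c CT.l (CT.d CT.l CT.l)) (CT.c CT.l (CT.d CT.l CT.l))) (CT.a (CT.c CT.l (CT.d CT.l CT.l)) (CT.c CT.l (CT.d CT.l CT.l)))) (CT.b (CT.a (CT.c CT.l (CT.d CT.l CT.l)) (CT.c (CT.b CT.l CT.l) (CT.d CT.l (CT.b CT.l CT.l)))) (CT.a (CT.c (CT.b CT.l CT.l) (CT.d CT.l (CT.b CT.l CT.l))) (CT.c (CT.b CT.l CT.l) (CT.d (CT.b CT.l CT.l) (CT.b CT.l CT.l)))))))) 274877906944 274877906944 824633720832 824633720832 389231411200 389231411200 1236950581248 412316860416 = true := by decide +kernel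

theorem chkF_16 : chk testF (CT.b (CT.a (CT.d (CT.b (CT.a CT.l CT.l) (CT.a CT.l CT.l)) (CT.b (CT.a (CT.c CT.l CT.l) (CT.c CT.l CT.l)) (CT.a (CT.c CT.l CT.l) (CT.c CT.l CT.l)))) (CT.d (CT.b (CT.a CT.l CT.l) (CT.a CT.l (CT.b CT.l CT.l))) (CT.b (CT.a (CT.c CT.l CT.l) (CT.a CT.l CT.l)) (CT.a (CT.c CT.l CT.l) (CT.b CT.l (CT.a CT.l CT.l)))))) (CT.a (CT.d (CT.b (CT.a (CT.d CT.l CT.l) (CT.d CT.l CT.l)) (CT.a (CT.d CT.l CT.l) (CT.d CT.l (CT.b CT.l CT.l)))) (CT.b (CT.a (CT.c CT.l CT.l) (CT.c CT.l (CT.d CT.l CT.l))) (CT.a (CT.c CT.l (CT.d CT.l CT.l)) (CT.c CT.l (CT.b CT.l CT.l))))) (CT.b (CT.d (CT.a (CT.b CT.l CT.l) (CT.b CT.l CT.l)) (CT.a (CT.b (CT.c CT.l CT.l) (CT.c CT.l CT.l)) (CT.b (CT.a CT.l CT.l) (CT.a CT.l CT.l)))) (CT.d (CT.a (CT.b CT.l (CT.a CT.l CT.l)) (CT.b (CT.a CT.l CT.l) (CT.a CT.l CT.l)))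 (CT.a (CT.b (CT.c CT.l CT.l) (CT.a CT.l CT.l)) (CT.b (CT.a CT.l CT.l) (CT.a CT.l CT.l))))))) 549755813888 549755813888 0 824633720832 389231411200 389231411200 824633720832 412316860416 = true := by decide +kernel

end Vale.Agent.Lib.P154
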