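import Vale.Agent.Lib.P154.TMProg

/-!
Generated kernel checks of the Taylor model box tests for `F`.
-/

namespace Vale.Agent.Lib.P154

theorem chkF_17 : chk testF (CT.a (CT.d (CT.b (CT.a (CT.c CT.l CT.l) (CT.c CT.l CT.l)) (CT.a (CT.c CT.l (CT.d CT.l CT.l)) (CT.c CT.l (CT.d CT.l CT.l)))) (CT.a (CT.b (CT.c CT.l (CT.d CT.l CT.l)) (CT.c CT.l (CT.d CT.l CT.l))) (CT.b (CT.c CT.l (CT.d CT.l CT.l)) (CT.c CT.l (CT.d CT.l CT.l))))) (CT.d (CT.b (CT.a (CT.c CT.l (CT.d CT.l CT.l)) (CT.a (CT.c CT.l CT.l) (CT.b CT.l CT.l))) (CT.a (CT.c CT.l (CT.b CT.l CT.l)) (CT.a (CT.c CT.l CT.l) (CT.b CT.l CT.l)))) (CT.a (CT.b (CT.c CT.l (CT.d CT.l CT.l)) (CT.c CT.l (CT.b (CT.d CT.l CT.l) (CT.a CT.l CT.l)))) (CT.b (CT.a (CT.c CT.l (CT.b CT.l CT.l)) (CT.c CT.l (CT.b CT.l CT.l))) (CT.a (CT.c CT.l (CT.b CT.l CT.l)) (CT.b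 (CT.c CT.l CT.l) (CT.c CT.l CT.l))))))) 549755813888 549755813888 0 412316860416 389231411200 389231411200 1236950581248 412316860416 = true := by decide +kernel

theorem chkF_18 : chk testF (CT.a (CT.d (CT.a (CT.b (CT.c CT.l (CT.d CT.l CT.l)) (CT.c CT.l (CT.d CT.l CT.l))) (CT.b (CT.c CT.l (CT.d CT.l CT.l)) (CT.c CT.l (CT.a (CT.d CT.l CT.l) (CT.b CT.l CT.l))))) (CT.a (CT.b (CT.c CT.l (CT.d CT.l (CT.b CT.l CT.l))) (CT.c CT.l (CT.d (CT.b CT.l CT.l) (CT.b CT.l CT.l)))) (CT.b (CT.c CT.l (CT.d (CT.b CT.l CT.l) (CT.b CT.l CT.l))) (CT.c (CT.a CT.l CT.l) (CT.a (CT.d CT.l CT.l) (CT.b CT.l CT.l)))))) (CT.a (CT.d (CT.b (CT.c CT.l (CT.b CT.l CT.l)) (CT.a (CT.c CT.l (CT.b CT.l CT.l)) (CT.b (CT.c CT.l CT.l) (CT.c CT.l CT.l)))) (CT.b (CT.c CT.l (CT.b (CT.a CT.l CT.l) (CT.a CT.l CT.l))) (CT.a (CT.c CT.l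 (CT.b CT.l CT.l)) (CT.c CT.l (CT.b CT.l CT.l))))) (CT.b (CT.d (CT.a (CT.b CT.l (CT.c CT.l CT.l)) (CT.b CT.l (CT.c CT.l CT.l))) (CT.a (CT.c CT.l (CT.b CT.l CT.l)) (CT.b (CT.c CT.l CT.l) (CT.c CT.l CT.l)))) (CT.d (CT.a (CT.b (CT.c CT.l CT.l) (CT.c CT.l CT.l)) (CT.b (CT.c CT.l CT.l) (CT.c CT.l CT.l))) (CT.a (CT.b (CT.c CT.l CT.l) (CT.c CT.l CT.l)) (CT.b (CT.c CT.l CT.l) (CT.c CT.l CT.l))))))) 549755813888 549755813888 412316860416 412316860416 389231411200 389231411200 1236950581248 412316860416 = true := by decide +kernel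

theorem chkF_19 : chk testF (CT.b (CT.a (CT.d (CT.b (CT.d (CT.a CT.l CT.l) (CT.a CT.l CT.l)) (CT.a (CT.d CT.l CT.l) (CT.d CT.l CT.l))) (CT.b (CT.c CT.l (CT.a CT.l (CT.d CT.l CT.l))) (CT.a (CT.c CT.l (CT.d CT.l CT.l)) (CT.c CT.l (CT.b CT.l CT.l))))) (CT.d (CT.b (CT.a (CT.d CT.l CT.l) (CT.b CT.l CT.l)) (CT.a (CT.b CT.l (CT.d CT.l CT.l)) (CT.b CT.l (CT.d CT.l CT.l)))) (CT.b (CT.a (CT.c CT.l (CT.b CT.l CT.l)) (CT.b (CT.c CT.l CT.l) (CT.c CT.l CT.l))) (CT.a (CT.b (CT.c CT.l CT.l) (CT.c CT.l CT.l)) (CT.b (CT.c CT.l CT.l) (CT.c CT.l CT.l)))))) (CT.a (CT.d (CT.b (CT.a (CT.d CT.l (CT.b CT.l CT.l)) (CT.b (CT.d CT.l CT.l) (CT.d CT.l CT.l))) (CT.a (CT.d (CT.b CT.l CT.l) (CT.b CT.l CT.l)) (CT.b (CT.d CT.l CT.l) (CT.d CT.l CT.l)))) (CT.b (CT.a (CT.c CT.l (CT.b CT.l CT.l)) (CT.b (CT.c CT.l CT.l) (CT.c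 CT.l CT.l))) (CT.a (CT.c CT.l (CT.b CT.l CT.l)) (CT.b (CT.c CT.l CT.l) (CT.c CT.l CT.l))))) (CT.b (CT.d (CT.a (CT.b (CT.d CT.l CT.l) (CT.d CT.l CT.l)) (CT.b (CT.d CT.l CT.l) (CT.d CT.l CT.l))) (CT.a (CT.b (CT.c CT.l CT.l) (CT.c CT.l CT.l)) (CT.b (CT.d CT.l CT.l) (CT.d CT.l CT.l)))) (CT.d (CT.a (CT.b (CT.d CT.l CT.l) (CT.d CT.l CT.l)) (CT.b (CT.a CT.l CT.l) (CT.a CT.l CT.l))) (CT.a (CT.b (CT.d CT.l CT.l) (CT.a (CT.d CT.l CT.l) (CT.d CT.l CT.l))) (CT.b (CT.a (CT.d CT.l CT.l) (CT.d CT.l CT.l)) (CT.a (CT.d CT.l CT.l) (CT.d CT.l CT.l)))))))) 549755813888 274877906944 824633720832 824633720832 389231411200 389231411200 824633720832 412316860416 = true := by decide +kernel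

end Vale.Agent.Lib.P154
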