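import Vale.Agent.Lib.P154.TMProg

/-!
Generated kernel checks of the Taylor model box tests for `F`.
-/

namespace Vale.Agent.Lib.P154

theorem chkF_23 : chk testF (CT.a (CT.b (CT.d (CT.a (CT.b (CT.c CT.l CT.l) (CT.c CT.l CT.l)) (CT.b (CT.c CT.l CT.l) (CT.c CT.l CT.l))) (CT.a (CT.b (CT.c CT.l CT.l) (CT.c CT.l (CT.d CT.l CT.l))) (CT.b (CT.c CT.l (CT.d CT.l CT.l)) (CT.c CT.l (CT.d CT.l CT.l))))) (CT.d (CT.a (CT.b (CT.c CT.l CT.l) (CT.c CT.l (CT.d CT.l CT.l))) (CT.b (CT.c CT.l CT.l) (CT.a (CT.c CT.l CT.l) (CT.c CT.l CT.l)))) (CT.a (CT.b (CT.c CT.l (CT.d CT.l CT.l)) (CT.c CT.l (CT.d CT.l CT.l))) (CT.b (CT.c CT.l (CT.d CT.l CT.l)) (CT.c CT.l (CT.a CT.l CT.l)))))) (CT.b (CT.d (CT.a (CT.b (CT.c CT.l CT.l) (CT.d CT.l CT.l)) (CT.b (CT.d CT.l CT.l) (CT.a CT.l CT.l))) (CT.a (CT.b (CT.c CT.l (CT.d CT.l CT.l))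 (CT.c CT.l (CT.d CT.l CT.l))) (CT.b (CT.c CT.l (CT.d CT.l CT.l)) (CT.a (CT.c CT.l CT.l) (CT.b CT.l CT.l))))) (CT.d (CT.a (CT.b (CT.a (CT.c CT.l CT.l) (CT.d CT.l CT.l)) (CT.a (CT.d CT.l CT.l) (CT.b CT.l CT.l))) (CT.b (CT.a (CT.b CT.l CT.l) (CT.b CT.l CT.l)) (CT.a (CT.b CT.l CT.l) (CT.b CT.l CT.l)))) (CT.a (CT.b (CT.a (CT.c CT.l CT.l) (CT.c CT.l CT.l)) (CT.a (CT.c CT.l CT.l) (CT.b CT.l CT.l))) (CT.b (CT.a (CT.b CT.l CT.l) (CT.b CT.l CT.l)) (CT.a (CT.b CT.l CT.l) (CT.b CT.l CT.l))))))) 824633720832 274877906944 824633720832 412316860416 389231411200 389231411200 1236950581248 412316860416 = true := by decide +kernel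

theorem chkF_24 : chk testF (CT.b (CT.d (CT.a (CT.b (CT.c CT.l (CT.a CT.l CT.l)) (CT.a (CT.c CT.l CT.l) (CT.d CT.l CT.l))) (CT.b (CT.a (CT.d CT.l CT.l) (CT.d CT.l CT.l)) (CT.a (CT.d CT.l CT.l) (CT.b CT.l CT.l)))) (CT.a (CT.b (CT.c CT.l (CT.a CT.l CT.l)) (CT.a (CT.c CT.l CT.l) (CT.c CT.l CT.l))) (CT.b (CT.a (CT.c CT.l CT.l) (CT.c CT.l CT.l)) (CT.a (CT.b (CT.c CT.l CT.l) CT.l) (CT.b CT.l CT.l))))) (CT.a (CT.d (CT.b (CT.a (CT.d CT.l CT.l) (CT.d CT.l CT.l)) (CT.a (CT.d CT.l CT.l) (CT.b CT.l CT.l))) (CT.b (CT.a (CT.c CT.l (CT.d CT.l CT.l)) (CT.b (CT.c CT.l CT.l) (CT.c CT.l CT.l))) (CT.a (CT.b (CT.c CT.l CT.l) (CT.c CT.l CT.l)) (CT.b CT.l CT.l)))) (CT.d (CT.b (CT.a (CT.b CT.l CT.l) (CT.b CT.l CT.l)) (CT.a (CT.b CT.l CT.l) (CT.b CT.l CT.l))) (CT.b (CT.a (CT.b CT.l CT.l) (CT.b CT.l CT.l)) (CT.a (CT.b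 CT.l CT.l) (CT.b CT.l CT.l)))))) 824633720832 137438953472 1236950581248 412316860416 389231411200 389231411200 1236950581248 412316860416 = true := by decide +kernel

theorem chkF_25 : chk testF (CT.b (CT.d (CT.a (CT.b (CT.a (CT.b CT.l CT.l) (CT.b CT.l CT.l)) (CT.a (CT.b CT.l CT.l) (CT.b CT.l CT.l))) (CT.b (CT.b (CT.a CT.l CT.l) (CT.a CT.l CT.l)) (CT.b (CT.a CT.l CT.l) (CT.a CT.l CT.l)))) (CT.a (CT.b (CT.a (CT.b CT.l CT.l) (CT.b CT.l CT.l)) (CT.a (CT.b CT.l CT.l) (CT.b CT.l CT.l))) (CT.b (CT.a (CT.b CT.l CT.l) (CT.b CT.l CT.l)) (CT.a (CT.b CT.l CT.l) (CT.b CT.l CT.l))))) (CT.a (CT.b (CT.d (CT.a (CT.b CT.l CT.l) (CT.b CT.l CT.l)) (CT.a (CT.b CT.l CT.l) (CT.b CT.l CT.l))) (CT.d (CT.a (CT.b CT.l CT.l) (CT.b CT.l CT.l)) (CT.a (CT.b CT.l CT.l) (CT.b CT.l CT.l)))) (CT.b (CT.d (CT.b (CT.a CT.l CT.l)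 (CT.a CT.l CT.l)) (CT.a (CT.b CT.l CT.l) (CT.b CT.l CT.l))) (CT.d (CT.a (CT.b CT.l CT.l) (CT.b CT.l CT.l)) (CT.a (CT.b CT.l CT.l) (CT.b CT.l CT.l)))))) 962072674304 137438953472 1236950581248 412316860416 389231411200 389231411200 1236950581248 412316860416 = true := by decide +kernel

end Vale.Agent.Lib.P154
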