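import Vale.Agent.Lib.P154.TMProg

/-!
Generated kernel checks of the Taylor model box tests for `G`.
-/

namespace Vale.Agent.Lib.P154

theorem chkG_8 : chk testG (CT.b (CT.b (CT.d (CT.b (CT.a (CT.d CT.l CT.l) (CT.d CT.l CT.l)) (CT.a (CT.b CT.l CT.l) (CT.b CT.l CT.l))) (CT.b (CT.a (CT.d CT.l (CT.b CT.l CT.l)) (CT.d (CT.b CT.l CT.l) (CT.b CT.l (CT.a CT.l CT.l)))) (CT.a (CT.b (CT.d CT.l CT.l) (CT.d CT.l CT.l)) (CT.b (CT.d CT.l (CT.a CT.l CT.l)) (CT.d CT.l (CT.a CT.l CT.l)))))) (CT.d (CT.b (CT.a (CT.b CT.l CT.l) (CT.b CT.l CT.l)) (CT.a (CT.b CT.l CT.l) (CT.b CT.l CT.l))) (CT.b (CT.a (CT.b (CT.d CT.l CT.l) (CT.d CT.l CT.l)) (CT.b (CT.d CT.l (CT.a CT.l CT.l)) (CT.d CT.l CT.l))) (CT.a (CT.b (CT.d CT.l CT.l) (CT.a CT.l CT.l)) (CT.b (CT.a CT.l CT.l) (CT.a CT.l CT.l)))))) (CT.b (CT.a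 (CT.d (CT.b (CT.b CT.l CT.l) (CT.b CT.l CT.l)) (CT.b (CT.b (CT.a CT.l CT.l) (CT.a CT.l CT.l)) (CT.b (CT.a CT.l CT.l) (CT.a CT.l CT.l)))) (CT.d (CT.b (CT.b CT.l CT.l) (CT.b CT.l CT.l)) (CT.b (CT.b (CT.a CT.l CT.l) (CT.a CT.l CT.l)) (CT.a (CT.b CT.l CT.l) (CT.b CT.l CT.l))))) (CT.a (CT.d (CT.b (CT.a CT.l CT.l) (CT.a CT.l CT.l)) (CT.b (CT.a (CT.b CT.l CT.l) (CT.b CT.l CT.l)) (CT.a (CT.b CT.l CT.l) (CT.b CT.l CT.l)))) (CT.d (CT.b (CT.a CT.l CT.l) (CT.a CT.l CT.l)) (CT.b (CT.a (CT.b CT.l CT.l) (CT.b CT.l CT.l)) (CT.a (CT.b CT.l CT.l) (CT.b CT.l CT.l))))))) 274877906944 274877906944 0 1649267441664 389231411200 389231411200 1236950581248 412316860416 = true := by decide +kernel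

theorem chkG_9 : chk testG (CT.b (CT.a (CT.d (CT.a CT.l (CT.b CT.l CT.l)) (CT.a (CT.b CT.l CT.l) (CT.b CT.l CT.l))) (CT.d (CT.b (CT.a (CT.d CT.l CT.l) (CT.d (CT.b (CT.d (CT.a CT.l CT.l) (CT.a CT.l (CT.c CT.l CT.l))) (CT.d (CT.a CT.l CT.l) (CT.a CT.l (CT.c CT.l CT.l)))) (CT.b (CT.d (CT.a CT.l (CT.c CT.l CT.l)) (CT.a CT.l (CT.c CT.l CT.l))) (CT.d (CT.a CT.l (CT.c CT.l CT.l)) (CT.a CT.l (CT.c CT.l CT.l)))))) (CT.a (CT.d CT.l CT.l) (CT.d (CT.b (CT.d (CT.a CT.l CT.l) (CT.a CT.l CT.l)) (CT.d (CT.a CT.l CT.l) (CT.a CT.l CT.l))) (CT.b (CT.d (CT.a CT.l CT.l) (CT.a CT.l (CT.c CT.l CT.l))) (CT.d (CT.a CT.l CT.l) (CT.a CT.l CT.l)))))) (CT.b (CT.a (CT.d CT.l CT.l) (CT.d (CT.b (CT.d (CT.a CT.l (CT.c CT.l CT.l)) (CT.a CT.l (CT.c CT.l CT.l))) (CT.d (CT.a CT.l (CT.c CT.l CT.l)) (CT.a CT.l (CT.c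 CT.l CT.l)))) (CT.b (CT.a CT.l (CT.d (CT.c CT.l CT.l) (CT.c CT.l CT.l))) (CT.a CT.l (CT.d (CT.c CT.l CT.l) (CT.c CT.l CT.l)))))) (CT.a (CT.d CT.l (CT.a CT.l CT.l)) (CT.d (CT.b (CT.a CT.l (CT.d (CT.c CT.l CT.l) (CT.c CT.l CT.l))) (CT.a CT.l (CT.d CT.l CT.l))) (CT.b (CT.a CT.l (CT.d (CT.c CT.l CT.l) (CT.c CT.l CT.l))) (CT.a CT.l (CT.c CT.l (CT.d CT.l CT.l))))))))) (CT.a (CT.d (CT.b (CT.a CT.l CT.l) (CT.a CT.l CT.l)) (CT.a (CT.b CT.l CT.l) (CT.b CT.l CT.l))) (CT.d (CT.b (CT.a (CT.d CT.l CT.l) (CT.d (CT.b (CT.d CT.l CT.l) (CT.d CT.l CT.l)) (CT.b (CT.a CT.l (CT.d CT.l CT.l)) (CT.a CT.l CT.l)))) (CT.a (CT.d CT.l CT.l) (CT.d (CT.b CT.l CT.l) (CT.b (CT.a CT.l CT.l) CT.l)))) (CT.b (CT.a (CT.d CT.l (CT.b CT.l CT.l)) (CT.d (CT.b (CT.a CT.l (CT.d CT.l CT.l)) (CT.a CT.l CT.l)) (CT.b (CT.a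 CT.l (CT.c CT.l CT.l)) (CT.a CT.l (CT.c CT.l CT.l))))) (CT.a (CT.d CT.l CT.l) (CT.d (CT.b (CT.a CT.l CT.l) (CT.a CT.l CT.l)) (CT.b (CT.a CT.l CT.l) (CT.a CT.l CT.l)))))))) 549755813888 549755813888 0 412316860416 389231411200 389231411200 824633720832 412316860416 = true := by decide +kernel

theorem chkG_10 : chk testG (CT.a (CT.b (CT.d (CT.b (CT.a CT.l CT.l) (CT.a CT.l CT.l)) (CT.a (CT.b CT.l CT.l) (CT.b CT.l CT.l))) (CT.d (CT.b (CT.a CT.l CT.l) (CT.a CT.l CT.l)) (CT.a (CT.b CT.l CT.l) (CT.b CT.l CT.l)))) (CT.b (CT.d (CT.b (CT.a (CT.d CT.l CT.l) (CT.d (CT.b CT.l CT.l) (CT.b CT.l CT.l))) (CT.a CT.l (CT.d CT.l (CT.b CT.l CT.l)))) (CT.b (CT.a (CT.d CT.l CT.l) (CT.d (CT.b CT.l CT.l) (CT.b (CT.a CT.l CT.l) CT.l))) (CT.a (CT.d CT.l CT.l) (CT.d (CT.b CT.l CT.l) (CT.b CT.l CT.l)))))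 (CT.d (CT.b (CT.a CT.l (CT.d CT.l CT.l)) (CT.a CT.l (CT.d CT.l CT.l))) (CT.a (CT.b (CT.d CT.l CT.l) (CT.a CT.l CT.l)) (CT.b (CT.d (CT.b CT.l CT.l) (CT.a CT.l CT.l)) (CT.d CT.l (CT.a CT.l CT.l))))))) 549755813888 549755813888 412316860416 412316860416 389231411200 389231411200 824633720832 412316860416 = true := by decide +kernel

theorem chkG_11 : chk testG (CT.a (CT.b (CT.d (CT.b (CT.a CT.l (CT.b CT.l CT.l)) (CT.a CT.l (CT.b CT.l CT.l))) (CT.b (CT.a (CT.b CT.l CT.l) (CT.b CT.l CT.l)) (CT.a (CT.b CT.l CT.l) (CT.b CT.l CT.l)))) (CT.a (CT.d (CT.b CT.l CT.l) (CT.b (CT.a CT.l CT.l) (CT.a CT.l CT.l))) (CT.d (CT.b (CT.b CT.l CT.l) (CT.a CT.l CT.l)) (CT.b (CT.a CT.l CT.l) (CT.a CT.l CT.l))))) (CT.b (CT.b (CT.d (CT.a (CT.b CT.l CT.l) (CT.b (CT.a CT.l CT.l) (CT.a CT.l CT.l))) (CT.a (CT.b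 CT.l CT.l) (CT.b (CT.a CT.l CT.l) (CT.a CT.l CT.l)))) (CT.d (CT.a (CT.b CT.l CT.l) (CT.b (CT.a CT.l CT.l) (CT.a CT.l CT.l))) (CT.a (CT.b CT.l (CT.a CT.l CT.l)) (CT.b (CT.a CT.l CT.l) (CT.a CT.l CT.l))))) (CT.d (CT.a (CT.b (CT.a CT.l (CT.b CT.l CT.l)) (CT.a CT.l (CT.b CT.l CT.l))) (CT.b (CT.b (CT.a CT.l CT.l) (CT.a CT.l (CT.d CT.l CT.l))) (CT.a (CT.b CT.l (CT.d CT.l CT.l)) (CT.b (CT.d CT.l CT.l) (CT.d (CT.a CT.l (CT.b CT.l CT.l)) (CT.a CT.l (CT.b CT.l CT.l))))))) (CT.a (CT.b (CT.a CT.l (CT.b CT.l CT.l)) (CT.a (CT.b CT.l CT.l) (CT.b CT.l CT.l))) (CT.b (CT.b (CT.a CT.l CT.l) (CT.a CT.l (CT.d CT.l CT.l))) (CT.a (CT.b CT.l (CT.d CT.l CT.l)) (CT.b (CT.d (CT.a CT.l CT.l) (CT.a CT.l CT.l)) (CT.d (CT.a CT.l (CT.b CT.l CT.l)) (CT.a CT.l (CT.b CT.l CT.l)))))))))) 549755813888 549755813888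 824633720832 824633720832 389231411200 389231411200 824633720832 412316860416 = true := by decide +kernel

end Vale.Agent.Lib.P154
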