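import Vale.Agent.Lib.P154.TMProg

/-!
Generated kernel checks of the Taylor model box tests for `G`.
-/

namespace Vale.Agent.Lib.P154

theorem chkG_12 : chk testG (CT.b (CT.d (CT.a (CT.b (CT.d CT.l CT.l) (CT.d CT.l CT.l)) (CT.b (CT.d CT.l CT.l) (CT.d CT.l CT.l))) (CT.a (CT.b (CT.d CT.l (CT.a CT.l CT.l)) (CT.d CT.l (CT.a CT.l CT.l))) (CT.b (CT.a (CT.d CT.l CT.l) (CT.d CT.l CT.l)) (CT.a (CT.d CT.l CT.l) (CT.d CT.l CT.l))))) (CT.d (CT.a (CT.b (CT.d CT.l CT.l) (CT.d CT.l CT.l)) (CT.b (CT.d CT.l CT.l) (CT.d CT.l CT.l))) (CT.a (CT.b (CT.d CT.l (CT.a CT.l CT.l)) (CT.a (CT.d CT.l CT.l) (CT.d CT.l CT.l))) (CT.b (CT.a (CT.d CT.l CT.l) (CT.d CT.l CT.l)) (CT.a (CT.d CT.l CT.l) (CT.d CT.l CT.l)))))) 549755813888 274877906944 0 412316860416 389231411200 389231411200 1236950581248 412316860416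 = true := by decide +kernel

theorem chkG_13 : chk testG (CT.d (CT.a (CT.b (CT.d (CT.a CT.l CT.l) (CT.a CT.l CT.l)) (CT.d (CT.a CT.l CT.l) (CT.a CT.l CT.l))) (CT.b (CT.d (CT.b (CT.a CT.l (CT.c CT.l (CT.d CT.l (CT.b CT.l CT.l)))) (CT.a CT.l (CT.c CT.l (CT.d CT.l (CT.b CT.l CT.l))))) (CT.a (CT.b (CT.c CT.l CT.l) (CT.c CT.l CT.l)) (CT.b (CT.c CT.l (CT.d (CT.b CT.l CT.l) (CT.b CT.l CT.l))) (CT.c CT.l (CT.d (CT.b CT.l CT.l) (CT.b CT.l CT.l)))))) (CT.d (CT.b (CT.a CT.l (CT.c CT.l (CT.d CT.l CT.l))) (CT.a CT.l (CT.c CT.l (CT.d CT.l CT.l)))) (CT.b (CT.a CT.l (CT.c CT.l (CT.d (CT.b CT.l CT.l) (CT.b CT.l CT.l)))) (CT.a CT.l (CT.c CT.l (CT.d CT.l CT.l))))))) (CT.a (CT.b (CT.d (CT.a CT.l (CT.b CT.l CT.l)) (CT.a (CT.b CT.l CT.l) (CT.b (CT.c CT.l CT.l) (CT.c CT.l CT.l)))) (CT.d (CT.a CT.l (CT.b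 CT.l CT.l)) (CT.a (CT.b CT.l CT.l) (CT.b (CT.c CT.l CT.l) CT.l)))) (CT.b (CT.d (CT.a (CT.b (CT.c CT.l CT.l) (CT.c CT.l CT.l)) (CT.b (CT.c CT.l (CT.d (CT.b CT.l CT.l) (CT.a CT.l (CT.b CT.l CT.l)))) (CT.c CT.l (CT.d (CT.b CT.l CT.l) (CT.b (CT.a CT.l CT.l) (CT.a CT.l CT.l)))))) (CT.a (CT.b (CT.c CT.l (CT.d CT.l CT.l)) (CT.c CT.l (CT.a CT.l CT.l))) (CT.b (CT.c CT.l (CT.d (CT.a CT.l (CT.b CT.l CT.l)) (CT.a CT.l (CT.b (CT.c CT.l CT.l) (CT.c CT.l CT.l))))) (CT.c CT.l (CT.d (CT.a CT.l (CT.b CT.l CT.l)) (CT.a CT.l (CT.b (CT.c CT.l CT.l) (CT.c CT.l CT.l)))))))) (CT.d (CT.a (CT.b (CT.c CT.l CT.l) (CT.c CT.l CT.l)) (CT.b (CT.c CT.l (CT.d (CT.b CT.l CT.l) (CT.b CT.l CT.l))) (CT.c CT.l (CT.d (CT.b CT.l CT.l) (CT.b CT.l CT.l))))) (CT.a (CT.b (CT.c CT.l (CT.a CT.l CT.l)) (CT.c CT.l CT.l)) (CT.b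 (CT.c CT.l (CT.d (CT.a CT.l (CT.b CT.l CT.l)) (CT.a CT.l (CT.b CT.l CT.l)))) (CT.c CT.l (CT.d (CT.a CT.l CT.l) (CT.a CT.l (CT.b CT.l CT.l)))))))))) 824633720832 274877906944 0 206158430208 389231411200 389231411200 1236950581248 412316860416 = true := by decide +kernel

theorem chkG_14 : chk testG (CT.d (CT.b (CT.a (CT.d (CT.a CT.l CT.l) (CT.a CT.l CT.l)) (CT.d (CT.b (CT.a CT.l (CT.c CT.l (CT.d CT.l CT.l))) (CT.a CT.l (CT.c CT.l CT.l))) (CT.b (CT.a CT.l (CT.c CT.l (CT.d CT.l CT.l))) (CT.a CT.l (CT.c CT.l CT.l))))) (CT.a (CT.d (CT.a CT.l CT.l) (CT.a CT.l CT.l)) (CT.d (CT.b (CT.a CT.l (CT.c CT.l CT.l)) (CT.a CT.l CT.l)) (CT.b (CT.a CT.l (CT.c CT.l CT.l)) (CT.a CT.l (CT.c CT.l CT.l)))))) (CT.a (CT.b (CT.a (CT.d CT.l (CT.b CT.l CT.l)) (CT.d (CT.b CT.l CT.l) (CT.b CT.l CT.l))) (CT.a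 (CT.d CT.l (CT.c CT.l CT.l)) (CT.d (CT.b CT.l CT.l) (CT.b CT.l CT.l)))) (CT.b (CT.d (CT.b (CT.a (CT.c CT.l CT.l) (CT.c CT.l (CT.d CT.l CT.l))) (CT.a CT.l (CT.c CT.l (CT.d CT.l CT.l)))) (CT.a (CT.b (CT.c CT.l CT.l) (CT.c CT.l CT.l)) (CT.b (CT.c CT.l (CT.d (CT.a CT.l CT.l) (CT.a CT.l CT.l))) (CT.c CT.l (CT.d CT.l (CT.a CT.l CT.l)))))) (CT.d (CT.a (CT.b CT.l CT.l) (CT.b (CT.c CT.l CT.l) (CT.c CT.l CT.l))) (CT.a (CT.b (CT.c CT.l CT.l) (CT.c CT.l CT.l)) (CT.b (CT.c CT.l (CT.d CT.l CT.l)) (CT.c CT.l (CT.d CT.l CT.l)))))))) 824633720832 274877906944 206158430208 206158430208 389231411200 389231411200 1236950581248 412316860416 = true := by decide +kernel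

theorem chkG_15 : chk testG (CT.a (CT.d (CT.b (CT.a (CT.b (CT.d CT.l CT.l) CT.l) (CT.b (CT.d CT.l CT.l) (CT.a CT.l CT.l))) (CT.a (CT.b CT.l CT.l) (CT.b (CT.a CT.l CT.l) (CT.a CT.l CT.l)))) (CT.b (CT.a (CT.b (CT.a (CT.d CT.l CT.l) (CT.d CT.l CT.l)) (CT.a (CT.d CT.l CT.l) (CT.d CT.l CT.l))) (CT.b (CT.a (CT.d CT.l CT.l) (CT.d CT.l CT.l)) (CT.a (CT.d CT.l CT.l) (CT.d CT.l CT.l)))) (CT.a (CT.b (CT.a CT.l CT.l) (CT.a CT.l CT.l)) (CT.b (CT.a (CT.d CT.l CT.l) (CT.d CT.l CT.l)) (CT.a CT.l (CT.d CT.l CT.l)))))) (CT.b (CT.d (CT.a (CT.b (CT.d CT.l (CT.a CT.l CT.l)) (CT.d CT.l (CT.a CT.l CT.l))) (CT.b (CT.d (CT.b (CT.a CT.l CT.l) (CT.a CT.l CT.l)) (CT.b (CT.a CT.l CT.l) (CT.a CT.l CT.l))) (CT.d (CT.b CT.l CT.l) (CT.a CT.l (CT.b CT.l CT.l))))) (CT.a (CT.b (CT.a (CT.d CT.l CT.l) (CT.d CT.l (CT.c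 CT.l CT.l))) (CT.a (CT.d CT.l CT.l) (CT.d CT.l CT.l))) (CT.b (CT.d (CT.a (CT.b CT.l CT.l) (CT.b (CT.c CT.l CT.l) CT.l)) (CT.a (CT.b CT.l CT.l) (CT.b (CT.c CT.l CT.l) (CT.c CT.l CT.l)))) (CT.a (CT.d CT.l (CT.b CT.l CT.l)) (CT.d (CT.b CT.l CT.l) (CT.b (CT.c CT.l CT.l) CT.l)))))) (CT.d (CT.a (CT.b (CT.a CT.l CT.l) (CT.a CT.l CT.l)) (CT.b (CT.d (CT.a CT.l CT.l) (CT.a CT.l CT.l)) (CT.a (CT.d CT.l CT.l) (CT.d CT.l CT.l)))) (CT.a (CT.b (CT.a (CT.d CT.l CT.l) (CT.d CT.l CT.l)) (CT.a (CT.d CT.l CT.l) (CT.d CT.l CT.l))) (CT.b (CT.a (CT.d CT.l CT.l) (CT.d (CT.b CT.l CT.l) (CT.b CT.l CT.l))) (CT.a (CT.d CT.l CT.l) (CT.d CT.l (CT.b CT.l CT.l)))))))) 549755813888 549755813888 412316860416 412316860416 389231411200 389231411200 1236950581248 412316860416 = true := by decide +kernel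

end Vale.Agent.Lib.P154
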