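import Vale.Agent.Lib.P154.TMCore

/-!
Generated Taylor model programs for the two functions `F1`, `G2`.
-/

namespace Vale.Agent.Lib.P154

noncomputable def uPartT (R X : TM) : TM × TM × TM × TM × TM × TM × TM × TM × TM × TM × TM × TM :=
  let x2 := sqT X
  let aux1 := smulT 2 x2
  let sig := addC 1649267441664 aux1
  let gam3 := subC 274877906944 x2
  let r2 := sqT R
  let rg3 := mulT R gam3
  let s := mulT r2 sig
  let c3 := mulT r2 rg3
  let s3 := thirdT s
  let sig3 := thirdT sig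
  let y := mulT R X
  let h := shrT 1 R
  let U0 := rsubC 1099511627776 R
  let aux2 := subT h y
  let aux3 := nrmT aux2
  let U1 := addC 1099511627776 aux3
  let aux4 := addT h y
  let aux5 := nrmT aux4
  let U2 := addC 1099511627776 aux5
  let aux6 := shrT 1 s
  let aux7 := rsubC 1099511627776 aux6
  let aux8 := addT aux7 c3
  let G := nrmT aux8
  let Y0 := mulT R sig
  (sig, sig3, rg3, r2, s, c3, s3, U0, U1, U2, G, Y0)

noncomputable def vPartT (Q Y : TM) : TM × TM × TM × TM × TM × TM × TM × TM × TM :=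
  let xp2 := sqT Y
  let aux1 := smulT 2 xp2
  let sigp := addC 1649267441664 aux1
  let gamp3 := subC 274877906944 xp2
  let rp2 := sqT Q
  let S := mulT rp2 sigp
  let rg3p := mulT Q gamp3
  let C3 := mulT rp2 rg3p
  let aux2 := shrT 1 S
  let aux3 := rsubC 1099511627776 aux2
  let aux4 := addT aux3 C3
  let Gw := nrmT aux4
  let aux5 := scaleT 98283 20 S
  let aux6 := rsubC 1099511627776 aux5
  let aux7 := mulT S aux6
  let fS := scaleT 543 13 aux7
  let r4 := sqT rp2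
  (xp2, sigp, rp2, S, rg3p, C3, Gw, fS, r4)

noncomputable def alphasT (X Y : TM) : TM × TM × TM × TM × TM × TM :=
  let aux1 := mulT X Y
  let z := thirdT aux1
  let hx := shrT 1 X
  let hy := shrT 1 Y
  let z2 := smulT 2 z
  let al0 := addC 549755813888 z2
  let al1 := rsubC 549755813888 z2
  let aux2 := addT hx hy
  let sxy := nrmT aux2
  let aux3 := addT sxy z
  let aux4 := nrmT aux3
  let al2 := subC 274877906944 aux4
  let aux5 := subT hy hx
  let dyx := nrmT aux5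
  let aux6 := subT dyx z
  let aux7 := nrmT aux6
  let al3 := subC 274877906944 aux7
  let aux8 := subT hx hy
  let dxy := nrmT aux8
  let aux9 := subT dxy z
  let aux10 := nrmT aux9
  let al4 := subC 274877906944 aux10
  let aux11 := subT z sxy
  let aux12 := nrmT aux11
  let al5 := subC 274877906944 aux12
  (al0, al1, al2, al3, al4, al5)

noncomputable def matFT (U0 U1 U2 X Y y2 : TM) : TM × TM × TM × TM × TM × TM × TM × TM × TM × TM × TM × TM × TM × TM × TM × TM × TM × TM × TM :=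
  let w0 := sqT U0
  let w1 := sqT U1
  let w2 := sqT U2
  let aux1 := addT w0 w1
  let W0 := addT aux1 w2
  let wx0 := mulT w0 Y
  let wx1 := mulT w1 Y
  let wx2 := mulT w2 Y
  let wxx0 := mulT w0 y2
  let wxx1 := mulT w1 y2
  let wxx2 := mulT w2 y2
  let wh0 := shrT 1 w0
  let wh1 := shrT 1 w1
  let wh2 := shrT 1 w2
  let wq0 := shrT 2 w0
  let wq1 := shrT 2 w1
  let wq2 := shrT 2 w2
  let a00 := negT w0
  let a01 := subT wh0 wx0
  let a02 := addT wh0 wx0
  let bc0 := addT wq0 wxx0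
  let b01 := subT bc0 wx0
  let b02 := addT bc0 wx0
  let a10 := negT w1
  let a11 := subT wh1 wx1
  let a12 := addT wh1 wx1
  let bc1 := addT wq1 wxx1
  let b11 := subT bc1 wx1
  let b12 := addT bc1 wx1
  let a20 := negT w2
  let a21 := subT wh2 wx2
  let a22 := addT wh2 wx2
  let bc2 := addT wq2 wxx2
  let b21 := subT bc2 wx2
  let b22 := addT bc2 wx2
  let t0 := negT U0
  let aux2 := rsubC 549755813888 X
  let t1 := mulT aux2 U1
  let aux3 := addC 549755813888 X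
  let t2 := mulT aux3 U2
  let tx0 := mulT t0 Y
  let tx1 := mulT t1 Y
  let tx2 := mulT t2 Y
  let th0 := shrT 1 t0
  let th1 := shrT 1 t1
  let th2 := shrT 1 t2
  let d00 := negT t0
  let d01 := subT th0 tx0
  let d02 := addT th0 tx0
  let d10 := negT t1
  let d11 := subT th1 tx1
  let d12 := addT th1 tx1
  let d20 := negT t2
  let d21 := subT th2 tx2
  let d22 := addT th2 tx2
  let aux4 := addT a00 a11
  let aux5 := addT aux4 a22
  let P1g0 := nrmT aux5
  let aux6 := addT w0 b11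
  let aux7 := addT aux6 b22
  let P2g0 := nrmT aux7
  let aux8 := addT d00 d11
  let aux9 := addT aux8 d22
  let Y1g0 := nrmT aux9
  let aux10 := addT a00 a12
  let aux11 := addT aux10 a21
  let P1g1 := nrmT aux11
  let aux12 := addT w0 b12
  let aux13 := addT aux12 b21
  let P2g1 := nrmT aux13
  let aux14 := addT d00 d12
  let aux15 := addT aux14 d21
  let Y1g1 := nrmT aux15
  let aux16 := addT a01 a10
  let aux17 := addT aux16 a22
  let P1g2 := nrmT aux17
  let aux18 := addT b01 w1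
  let aux19 := addT aux18 b22
  let P2g2 := nrmT aux19
  let aux20 := addT d01 d10
  let aux21 := addT aux20 d22
  let Y1g2 := nrmT aux21
  let aux22 := addT a01 a12
  let aux23 := addT aux22 a20
  let P1g3 := nrmT aux23
  let aux24 := addT b01 b12
  let aux25 := addT aux24 w2
  let P2g3 := nrmT aux25
  let aux26 := addT d01 d12
  let aux27 := addT aux26 d20
  let Y1g3 := nrmT aux27
  let aux28 := addT a02 a10
  let aux29 := addT aux28 a21
  let P1g4 := nrmT aux29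
  let aux30 := addT b02 w1
  let aux31 := addT aux30 b21
  let P2g4 := nrmT aux31
  let aux32 := addT d02 d10
  let aux33 := addT aux32 d21
  let Y1g4 := nrmT aux33
  let aux34 := addT a02 a11
  let aux35 := addT aux34 a20
  let P1g5 := nrmT aux35
  let aux36 := addT b02 b11
  let aux37 := addT aux36 w2
  let P2g5 := nrmT aux37
  let aux38 := addT d02 d11
  let aux39 := addT aux38 d20
  let Y1g5 := nrmT aux39
  (P1g0, P2g0, Y1g0, P1g1, P2g1, Y1g1, P1g2, P2g2, Y1g2, P1g3, P2g3, Y1g3, P1g4, P2g4, Y1g4, P1g5, P2g5, Y1g5, W0)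

noncomputable def matGT (U0 U1 U2 X Y y2 : TM) : TM × TM × TM × TM × TM × TM × TM × TM × TM × TM × TM × TM × TM :=
  let w0 := sqT U0
  let w1 := sqT U1
  let w2 := sqT U2
  let aux1 := addT w0 w1
  let W0 := addT aux1 w2
  let wx0 := mulT w0 Y
  let wx1 := mulT w1 Y
  let wx2 := mulT w2 Y
  let wxx0 := mulT w0 y2
  let wxx1 := mulT w1 y2
  let wxx2 := mulT w2 y2
  let wh0 := shrT 1 w0
  let wh1 := shrT 1 w1
  let wh2 := shrT 1 w2
  let wq0 := shrT 2 w0
  let wq1 := shrT 2 w1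
  let wq2 := shrT 2 w2
  let a00 := negT w0
  let a01 := subT wh0 wx0
  let a02 := addT wh0 wx0
  let bc0 := addT wq0 wxx0
  let b01 := subT bc0 wx0
  let b02 := addT bc0 wx0
  let a10 := negT w1
  let a11 := subT wh1 wx1
  let a12 := addT wh1 wx1
  let bc1 := addT wq1 wxx1
  let b11 := subT bc1 wx1
  let b12 := addT bc1 wx1
  let a20 := negT w2
  let a21 := subT wh2 wx2
  let a22 := addT wh2 wx2
  let bc2 := addT wq2 wxx2
  let b21 := subT bc2 wx2
  let b22 := addT bc2 wx2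
  let aux2 := addT a00 a11
  let aux3 := addT aux2 a22
  let P1g0 := nrmT aux3
  let aux4 := addT w0 b11
  let aux5 := addT aux4 b22
  let P2g0 := nrmT aux5
  let aux6 := addT a00 a12
  let aux7 := addT aux6 a21
  let P1g1 := nrmT aux7
  let aux8 := addT w0 b12
  let aux9 := addT aux8 b21
  let P2g1 := nrmT aux9
  let aux10 := addT a01 a10
  let aux11 := addT aux10 a22
  let P1g2 := nrmT aux11
  let aux12 := addT b01 w1
  let aux13 := addT aux12 b22
  let P2g2 := nrmT aux13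
  let aux14 := addT a01 a12
  let aux15 := addT aux14 a20
  let P1g3 := nrmT aux15
  let aux16 := addT b01 b12
  let aux17 := addT aux16 w2
  let P2g3 := nrmT aux17
  let aux18 := addT a02 a10
  let aux19 := addT aux18 a21
  let P1g4 := nrmT aux19
  let aux20 := addT b02 w1
  let aux21 := addT aux20 b21
  let P2g4 := nrmT aux21
  let aux22 := addT a02 a11
  let aux23 := addT aux22 a20
  let P1g5 := nrmT aux23
  let aux24 := addT b02 b11
  let aux25 := addT aux24 w2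
  let P2g5 := nrmT aux25
  (P1g0, P2g0, P1g1, P2g1, P1g2, P2g2, P1g3, P2g3, P1g4, P2g4, P1g5, P2g5, W0)

noncomputable def permAT (R Q al : TM) : TM × TM :=
  let ra := mulT R al
  let a := mulT Q ra
  let m := addC 1099511627776 a
  (ra, m)

noncomputable def permBT (ra m al W0 Y0 P1 P2 Y1 : TM) : TM × TM × TM × TM × TM :=
  let ib := invT m
  let ib2 := sqT ib
  let ib3 := mulT ib2 ib
  let ra2 := sqT ra
  let aux1 := mulT ra P1
  let aux2 := smulT 2 aux1
  let aux3 := subT P2 aux2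
  let aux4 := mulT ra2 W0
  let aux5 := addT aux3 aux4
  let Qt := nrmT aux5
  let aux6 := mulT ra Y0
  let aux7 := subT Y1 aux6
  let Lt := nrmT aux7
  let alsq := sqT al
  let Ta := mulT alsq Qt
  let Ka := mulT Ta ib
  let aux8 := smulT 2 ib
  let aux9 := addT ib2 aux8
  let Kb := mulT alsq aux9
  let aux10 := sqT Lt
  let Kc := mulT ib aux10
  let aux11 := mulT al Lt
  let aux12 := addT ib2 ib
  let aux13 := mulT Qt aux12
  let Kd := mulT aux11 aux13
  let aux14 := mulT Ta Qt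
  let aux15 := smulT 2 ib2
  let aux16 := addT ib3 aux15
  let aux17 := smulT 3 ib
  let aux18 := addT aux16 aux17
  let Ke := mulT aux14 aux18
  (Ka, Kb, Kc, Kd, Ke)

noncomputable def permGT (ra m al W0 P1 P2 : TM) : TM :=
  let ib := invT m
  let ra2 := sqT ra
  let aux1 := mulT ra P1
  let aux2 := smulT 2 aux1
  let aux3 := subT P2 aux2
  let aux4 := mulT ra2 W0
  let aux5 := addT aux3 aux4
  let Qt := nrmT aux5
  let alsq := sqT al
  let Ta := mulT alsq Qt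
  let Ka := mulT Ta ib
  Ka

noncomputable def hPartT (sig sig3 rg3 s s3 : TM) : TM × TM × TM :=
  let aux1 := mulT sig3 s3
  let aux2 := shrT 1 aux1
  let aux3 := shrT 1 sig3
  let aux4 := subT aux2 aux3
  let Hr := subT aux4 rg3
  let aux5 := subT sig3 rg3
  let aux6 := rsubC 2199023255552 s3
  let aux7 := mulT aux5 aux6
  let Lam1 := shrT 1 aux7
  let aux8 := mulT sig s
  let aux9 := scaleT 3 6 s
  let aux10 := rsubC 1099511627776 aux9
  let f2 := mulT aux8 aux10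
  (Hr, Lam1, f2)

noncomputable def polysT (sig sig3 rg3 c3 s3 : TM) : TM × TM × TM :=
  let s3c3 := mulT s3 c3
  let s3sq := sqT s3
  let s3cu := mulT s3sq s3
  let rc := mulT rg3 c3
  let c3sq := sqT c3
  let s3c := mulT s3sq c3
  let hs := shrT 1 s3c3
  let aux1 := addC 1099511627776 c3
  let aux2 := smulT 2 s3
  let aux3 := subT aux1 aux2
  let aux4 := nrmT aux3
  let aux5 := subT aux4 hs
  let aux6 := nrmT aux5
  let aux7 := scaleT 3 2 s3sq
  let aux8 := addT aux6 aux7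
  let aux9 := nrmT aux8
  let h31 := mulT sig aux9
  let aux10 := shrT 2 s3
  let aux11 := addT c3 aux10
  let aux12 := nrmT aux11
  let aux13 := subT aux12 hs
  let aux14 := nrmT aux13
  let aux15 := shrT 2 s3sq
  let aux16 := subT aux14 aux15
  let aux17 := nrmT aux16
  let aux18 := shrT 3 s3cu
  let aux19 := addT aux17 aux18
  let aux20 := nrmT aux19
  let aux21 := mulT sig aux20
  let aux22 := smulT 4 rg3
  let aux23 := subT rc aux22
  let aux24 := nrmT aux23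
  let aux25 := addT aux24 aux21
  let h61 := nrmT aux25
  let aux26 := shrT 2 s3c3
  let aux27 := addT s3 aux26
  let aux28 := nrmT aux27
  let aux29 := shrT 2 s3cu
  let aux30 := addT aux28 aux29
  let aux31 := nrmT aux30
  let aux32 := mulT sig aux31
  let aux33 := shrT 1 c3
  let aux34 := rsubC 2199023255552 aux33
  let aux35 := subT aux34 c3sq
  let aux36 := nrmT aux35
  let aux37 := scaleT 5 1 s3sq
  let aux38 := addT aux36 aux37
  let aux39 := nrmT aux38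
  let aux40 := scaleT 5 3 s3c
  let aux41 := addT aux39 aux40
  let aux42 := nrmT aux41
  let aux43 := mulT sig3 aux42
  let aux44 := smulT 2 rc
  let aux45 := subT aux44 rg3
  let aux46 := nrmT aux45
  let aux47 := subT aux46 aux32
  let aux48 := nrmT aux47
  let aux49 := addT aux48 aux43
  let h71 := nrmT aux49
  (h31, h61, h71)

noncomputable def finalFT (sig rg3 r2 s G Hr Lam1 f2 h31 h61 h71 rp2 S C3 Gw fS r4 tau B1 B2 B4 B5 B6 : TM) : TM :=
  let aux1 := mulT tau Lam1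
  let aux2 := subT Hr aux1
  let aux3 := mulT rp2 B1
  let n1 := addT aux2 aux3
  let aux4 := mulT r2 n1
  let nhat := addC 1099511627776 aux4
  let aux5 := scaleT 9 6 s
  let aux6 := rsubC 2199023255552 aux5
  let f1 := mulT sig aux6
  let hsig := shrT 1 sig
  let aux7 := subT hsig rg3
  let aux8 := addT n1 aux7
  let T1 := scaleT 3 1 aux8
  let aux9 := mulT f1 nhat
  let T2 := scaleT 3 6 aux9
  let aux10 := mulT G Gw
  let aux11 := mulT aux10 B2
  let T3 := smulT 3 aux11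
  let aux12 := subT rg3 hsig
  let T4 := mulT aux12 fS
  let aux13 := mulT G sig
  let aux14 := subT tau fS
  let aux15 := mulT aux13 aux14
  let T5 := scaleT 5 5 aux15
  let aux16 := smulT 3 rg3
  let aux17 := scaleT 3 6 f2
  let aux18 := subT aux16 aux17
  let T6 := scaleT 5 4 aux18
  let aux19 := smulT 4 B6
  let aux20 := mulT tau h31
  let aux21 := smulT 4 aux20
  let aux22 := addT aux19 aux21
  let aux23 := mulT rp2 B4
  let aux24 := smulT 4 aux23
  let aux25 := subT aux22 aux24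
  let aux26 := mulT S h61
  let aux27 := addT aux25 aux26
  let aux28 := mulT C3 h71
  let aux29 := smulT 9 aux28
  let aux30 := subT aux27 aux29
  let aux31 := mulT r4 B5
  let aux32 := addT aux30 aux31
  let T7 := scaleT 3 6 aux32
  let aux33 := subT T1 T2
  let aux34 := addT aux33 T3
  let aux35 := addT aux34 T4
  let aux36 := addT aux35 T5
  let aux37 := addT aux36 T6
  let aux38 := subT aux37 T7
  aux38

noncomputable def progFT (R X Q Y : TM) : TM × TM × TM × TM × TM × TM × TM × TM :=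
  let ou := uPartT R X
  let ov := vPartT Q Y
  let oa := alphasT X Y
  let om := matFT ou.2.2.2.2.2.2.2.1 ou.2.2.2.2.2.2.2.2.1 ou.2.2.2.2.2.2.2.2.2.1 X Y ov.1
  let pa0 := permAT R Q oa.1
  let pa1 := permAT R Q oa.2.1
  let pa2 := permAT R Q oa.2.2.1
  let pa3 := permAT R Q oa.2.2.2.1
  let pa4 := permAT R Q oa.2.2.2.2.1
  let pa5 := permAT R Q oa.2.2.2.2.2
  let pb0 := permBT pa0.1 pa0.2 oa.1 om.2.2.2.2.2.2.2.2.2.2.2.2.2.2.2.2.2.2 ou.2.2.2.2.2.2.2.2.2.2.2 om.1 om.2.1 om.2.2.1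
  let pb1 := permBT pa1.1 pa1.2 oa.2.1 om.2.2.2.2.2.2.2.2.2.2.2.2.2.2.2.2.2.2 ou.2.2.2.2.2.2.2.2.2.2.2 om.2.2.2.1 om.2.2.2.2.1 om.2.2.2.2.2.1
  let pb2 := permBT pa2.1 pa2.2 oa.2.2.1 om.2.2.2.2.2.2.2.2.2.2.2.2.2.2.2.2.2.2 ou.2.2.2.2.2.2.2.2.2.2.2 om.2.2.2.2.2.2.1 om.2.2.2.2.2.2.2.1 om.2.2.2.2.2.2.2.2.1
  let pb3 := permBT pa3.1 pa3.2 oa.2.2.2.1 om.2.2.2.2.2.2.2.2.2.2.2.2.2.2.2.2.2.2 ou.2.2.2.2.2.2.2.2.2.2.2 om.2.2.2.2.2.2.2.2.2.1 om.2.2.2.2.2.2.2.2.2.2.1 om.2.2.2.2.2.2.2.2.2.2.2.1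
  let pb4 := permBT pa4.1 pa4.2 oa.2.2.2.2.1 om.2.2.2.2.2.2.2.2.2.2.2.2.2.2.2.2.2.2 ou.2.2.2.2.2.2.2.2.2.2.2 om.2.2.2.2.2.2.2.2.2.2.2.2.1 om.2.2.2.2.2.2.2.2.2.2.2.2.2.1 om.2.2.2.2.2.2.2.2.2.2.2.2.2.2.1
  let pb5 := permBT pa5.1 pa5.2 oa.2.2.2.2.2 om.2.2.2.2.2.2.2.2.2.2.2.2.2.2.2.2.2.2 ou.2.2.2.2.2.2.2.2.2.2.2 om.2.2.2.2.2.2.2.2.2.2.2.2.2.2.2.1 om.2.2.2.2.2.2.2.2.2.2.2.2.2.2.2.2.1 om.2.2.2.2.2.2.2.2.2.2.2.2.2.2.2.2.2.1
  let aux1 := addT pb0.1 pb1.1
  let aux2 := addT aux1 pb2.1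
  let aux3 := addT aux2 pb3.1
  let aux4 := addT aux3 pb4.1
  let aux5 := addT aux4 pb5.1
  let aux6 := addT pb0.2.1 pb1.2.1
  let aux7 := addT aux6 pb2.2.1
  let aux8 := addT aux7 pb3.2.1
  let aux9 := addT aux8 pb4.2.1
  let aux10 := addT aux9 pb5.2.1
  let aux11 := addT pb0.2.2.1 pb1.2.2.1
  let aux12 := addT aux11 pb2.2.2.1
  let aux13 := addT aux12 pb3.2.2.1
  let aux14 := addT aux13 pb4.2.2.1
  let aux15 := addT aux14 pb5.2.2.1
  let aux16 := addT pb0.2.2.2.1 pb1.2.2.2.1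
  let aux17 := addT aux16 pb2.2.2.2.1
  let aux18 := addT aux17 pb3.2.2.2.1
  let aux19 := addT aux18 pb4.2.2.2.1
  let aux20 := addT aux19 pb5.2.2.2.1
  let aux21 := addT pb0.2.2.2.2 pb1.2.2.2.2
  let aux22 := addT aux21 pb2.2.2.2.2
  let aux23 := addT aux22 pb3.2.2.2.2
  let aux24 := addT aux23 pb4.2.2.2.2
  let aux25 := addT aux24 pb5.2.2.2.2
  let isg := invT ov.2.1
  let aux26 := mulT ov.2.2.2.2.1 isg
  let tau := smulT 3 aux26
  let aux27 := shrT 1 isg
  let is6 := thirdT aux27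
  let B1 := mulT is6 aux5
  let B2 := mulT is6 aux10
  let B6 := mulT is6 aux15
  let B4 := mulT is6 aux20
  let B5 := mulT is6 aux25
  let oh := hPartT ou.1 ou.2.1 ou.2.2.1 ou.2.2.2.2.1 ou.2.2.2.2.2.2.1
  let op := polysT ou.1 ou.2.1 ou.2.2.1 ou.2.2.2.2.2.1 ou.2.2.2.2.2.2.1
  let ofin := finalFT ou.1 ou.2.2.1 ou.2.2.2.1 ou.2.2.2.2.1 ou.2.2.2.2.2.2.2.2.2.2.1 oh.1 oh.2.1 oh.2.2 op.1 op.2.1 op.2.2 ov.2.2.1 ov.2.2.2.1 ov.2.2.2.2.2.1 ov.2.2.2.2.2.2.1 ov.2.2.2.2.2.2.2.1 ov.2.2.2.2.2.2.2.2 tau B1 B2 B4 B5 B6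
  (pa0.2, pa1.2, pa2.2, pa3.2, pa4.2, pa5.2, ov.2.1, ofin)

noncomputable def progGT (R X Q Y : TM) : TM × TM × TM × TM × TM × TM × TM × TM :=
  let ou := uPartT R X
  let ov := vPartT Q Y
  let oa := alphasT X Y
  let om := matGT ou.2.2.2.2.2.2.2.1 ou.2.2.2.2.2.2.2.2.1 ou.2.2.2.2.2.2.2.2.2.1 X Y ov.1
  let pa0 := permAT R Q oa.1
  let pa1 := permAT R Q oa.2.1
  let pa2 := permAT R Q oa.2.2.1
  let pa3 := permAT R Q oa.2.2.2.1
  let pa4 := permAT R Q oa.2.2.2.2.1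
  let pa5 := permAT R Q oa.2.2.2.2.2
  let pb0 := permGT pa0.1 pa0.2 oa.1 om.2.2.2.2.2.2.2.2.2.2.2.2 om.1 om.2.1
  let pb1 := permGT pa1.1 pa1.2 oa.2.1 om.2.2.2.2.2.2.2.2.2.2.2.2 om.2.2.1 om.2.2.2.1
  let pb2 := permGT pa2.1 pa2.2 oa.2.2.1 om.2.2.2.2.2.2.2.2.2.2.2.2 om.2.2.2.2.1 om.2.2.2.2.2.1
  let pb3 := permGT pa3.1 pa3.2 oa.2.2.2.1 om.2.2.2.2.2.2.2.2.2.2.2.2 om.2.2.2.2.2.2.1 om.2.2.2.2.2.2.2.1
  let pb4 := permGT pa4.1 pa4.2 oa.2.2.2.2.1 om.2.2.2.2.2.2.2.2.2.2.2.2 om.2.2.2.2.2.2.2.2.1 om.2.2.2.2.2.2.2.2.2.1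
  let pb5 := permGT pa5.1 pa5.2 oa.2.2.2.2.2 om.2.2.2.2.2.2.2.2.2.2.2.2 om.2.2.2.2.2.2.2.2.2.2.1 om.2.2.2.2.2.2.2.2.2.2.2.1
  let aux1 := addT pb0 pb1
  let aux2 := addT aux1 pb2
  let aux3 := addT aux2 pb3
  let aux4 := addT aux3 pb4
  let aux5 := addT aux4 pb5
  let isg := invT ov.2.1
  let aux6 := shrT 1 isg
  let is6 := thirdT aux6
  let B1 := mulT is6 aux5
  let oh := hPartT ou.1 ou.2.1 ou.2.2.1 ou.2.2.2.2.1 ou.2.2.2.2.2.2.1
  let aux7 := smulT 3 ou.2.2.1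
  let aux8 := scaleT 3 6 oh.2.2
  let aux9 := subT aux7 aux8
  let aux10 := scaleT 3 4 aux9
  let aux11 := negT oh.1
  let aux12 := subT aux11 aux10
  let aux13 := shrT 10 ou.1
  let aux14 := subT aux12 aux13
  let aux15 := mulT ov.2.2.2.2.2.2.2.1 oh.2.1
  let aux16 := addT aux14 aux15
  let aux17 := mulT ov.2.2.1 B1
  let aux18 := subT aux16 aux17
  (pa0.2, pa1.2, pa2.2, pa3.2, pa4.2, pa5.2, ov.2.1, aux18)

/-- Certificate trees: which coordinate to bisect. -/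
inductive CT where
  | l : CT
  | a : CT → CT → CT
  | b : CT → CT → CT
  | c : CT → CT → CT
  | d : CT → CT → CT

/-- Run a box test on all leaves of a certificate tree. -/
noncomputable def chk (test : Nat → Nat → Nat → Nat → Nat → Nat → Nat → Nat → Bool) (t : CT) :
    Nat → Nat → Nat → Nat → Nat → Nat → Nat → Nat → Bool :=
  CT.rec (motive := fun _ => Nat → Nat → Nat → Nat → Nat → Nat → Nat → Nat → Bool)
    test
    (fun _ _ f g l1 w1 l2 w2 l3 w3 l4 w4 =>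
      (fun h => and (f l1 h l2 w2 l3 w3 l4 w4) (g (Nat.add l1 h) (Nat.sub w1 h) l2 w2 l3 w3 l4 w4))
        (Nat.shiftRight w1 1))
    (fun _ _ f g l1 w1 l2 w2 l3 w3 l4 w4 =>
      (fun h => and (f l1 w1 l2 h l3 w3 l4 w4) (g l1 w1 (Nat.add l2 h) (Nat.sub w2 h) l3 w3 l4 w4))
        (Nat.shiftRight w2 1))
    (fun _ _ f g l1 w1 l2 w2 l3 w3 l4 w4 =>
      (fun h => and (f l1 w1 l2 w2 l3 h l4 w4) (g l1 w1 l2 w2 (Nat.add l3 h) (Nat.sub w3 h) l4 w4))
        (Nat.shiftRight w3 1))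
    (fun _ _ f g l1 w1 l2 w2 l3 w3 l4 w4 =>
      (fun h => and (f l1 w1 l2 w2 l3 w3 l4 h) (g l1 w1 l2 w2 l3 w3 (Nat.add l4 h) (Nat.sub w4 h)))
        (Nat.shiftRight w4 1))
    t

/-- The box test for `F1`: all denominators certified positive and `F1 ≥ 0`. -/
noncomputable def testF (l1 w1 l2 w2 l3 w3 l4 w4 : Nat) : Bool :=
  (fun o =>
    and (posT o.1) (and (posT o.2.1) (and (posT o.2.2.1) (and (posT o.2.2.2.1)
      (and (posT o.2.2.2.2.1) (and (posT o.2.2.2.2.2.1) (and (posT o.2.2.2.2.2.2.1)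
        (nonnegT o.2.2.2.2.2.2.2))))))))
    (progFT (var1 l1 w1) (var2 l2 w2) (var3 l3 w3) (var4 l4 w4))

/-- The box test for `G2`: all denominators certified positive and `G2 ≥ 0`. -/
noncomputable def testG (l1 w1 l2 w2 l3 w3 l4 w4 : Nat) : Bool :=
  (fun o =>
    and (posT o.1) (and (posT o.2.1) (and (posT o.2.2.1) (and (posT o.2.2.2.1)
      (and (posT o.2.2.2.2.1) (and (posT o.2.2.2.2.2.1) (and (posT o.2.2.2.2.2.2.1)
        (nonnegT o.2.2.2.2.2.2.2))))))))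
    (progGT (var1 l1 w1) (var2 l2 w2) (var3 l3 w3) (var4 l4 w4))

end Vale.Agent.Lib.P154
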