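import Mathlib
import Vale.Agent.Lib.P154.TMSound
import Vale.Agent.Lib.P154.TMProg

/-!
Generated: real mirrors of the Taylor model programs and their soundness.
-/

namespace Vale.Agent.Lib.P154

/-- Real mirror of `uPartT`. -/
noncomputable def uPartR (R X : ℝ) : ℝ × ℝ × ℝ × ℝ × ℝ × ℝ × ℝ × ℝ × ℝ × ℝ × ℝ × ℝ :=
  let x2 := X ^ (2 : ℕ)
  let aux1 := ((2 : ℕ) : ℝ) * x2
  let sig := aux1 + ((1649267441664 : ℕ) : ℝ) / 2 ^ (40 : ℕ)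
  let gam3 := x2 - ((274877906944 : ℕ) : ℝ) / 2 ^ (40 : ℕ)
  let r2 := R ^ (2 : ℕ)
  let rg3 := R * gam3
  let s := r2 * sig
  let c3 := r2 * rg3
  let s3 := s / 3
  let sig3 := sig / 3
  let y := R * X
  let h := R / 2 ^ (1 : ℕ)
  let U0 := ((1099511627776 : ℕ) : ℝ) / 2 ^ (40 : ℕ) - R
  let aux2 := h - y
  let aux3 := aux2
  let U1 := aux3 + ((1099511627776 : ℕ) : ℝ) / 2 ^ (40 : ℕ)
  let aux4 := h + y
  let aux5 := aux4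
  let U2 := aux5 + ((1099511627776 : ℕ) : ℝ) / 2 ^ (40 : ℕ)
  let aux6 := s / 2 ^ (1 : ℕ)
  let aux7 := ((1099511627776 : ℕ) : ℝ) / 2 ^ (40 : ℕ) - aux6
  let aux8 := aux7 + c3
  let G := aux8
  let Y0 := R * sig
  (sig, sig3, rg3, r2, s, c3, s3, U0, U1, U2, G, Y0)

/-- Soundness of the block `uPart`. -/
theorem mem_uPart {P : Pt} {t_R t_X : TM} {R X : ℝ}
    (h_R : Mem P t_R R) (h_X : Mem P t_X X)
    :
    Mem P (uPartT t_R t_X).1 (uPartR R X).1 ∧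
    Mem P (uPartT t_R t_X).2.1 (uPartR R X).2.1 ∧
    Mem P (uPartT t_R t_X).2.2.1 (uPartR R X).2.2.1 ∧
    Mem P (uPartT t_R t_X).2.2.2.1 (uPartR R X).2.2.2.1 ∧
    Mem P (uPartT t_R t_X).2.2.2.2.1 (uPartR R X).2.2.2.2.1 ∧
    Mem P (uPartT t_R t_X).2.2.2.2.2.1 (uPartR R X).2.2.2.2.2.1 ∧
    Mem P (uPartT t_R t_X).2.2.2.2.2.2.1 (uPartR R X).2.2.2.2.2.2.1 ∧
    Mem P (uPartT t_R t_X).2.2.2.2.2.2.2.1 (uPartR R X).2.2.2.2.2.2.2.1 ∧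
    Mem P (uPartT t_R t_X).2.2.2.2.2.2.2.2.1 (uPartR R X).2.2.2.2.2.2.2.2.1 ∧
    Mem P (uPartT t_R t_X).2.2.2.2.2.2.2.2.2.1 (uPartR R X).2.2.2.2.2.2.2.2.2.1 ∧
    Mem P (uPartT t_R t_X).2.2.2.2.2.2.2.2.2.2.1 (uPartR R X).2.2.2.2.2.2.2.2.2.2.1 ∧
    Mem P (uPartT t_R t_X).2.2.2.2.2.2.2.2.2.2.2 (uPartR R X).2.2.2.2.2.2.2.2.2.2.2 := by
  have h_x2 := mem_sq h_X
  have h_aux1 := mem_smul 2 h_x2
  have h_sig := mem_addC 1649267441664 h_aux1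
  have h_gam3 := mem_subC 274877906944 h_x2
  have h_r2 := mem_sq h_R
  have h_rg3 := mem_mul h_R h_gam3
  have h_s := mem_mul h_r2 h_sig
  have h_c3 := mem_mul h_r2 h_rg3
  have h_s3 := mem_third h_s
  have h_sig3 := mem_third h_sig
  have h_y := mem_mul h_R h_X
  have h_h := mem_shr 1 h_R
  have h_U0 := mem_rsubC 1099511627776 h_R
  have h_aux2 := mem_sub h_h h_y
  have h_aux3 := mem_nrm h_aux2
  have h_U1 := mem_addC 1099511627776 h_aux3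
  have h_aux4 := mem_add h_h h_y
  have h_aux5 := mem_nrm h_aux4
  have h_U2 := mem_addC 1099511627776 h_aux5
  have h_aux6 := mem_shr 1 h_s
  have h_aux7 := mem_rsubC 1099511627776 h_aux6
  have h_aux8 := mem_add h_aux7 h_c3
  have h_G := mem_nrm h_aux8
  have h_Y0 := mem_mul h_R h_sig
  exact ⟨h_sig, h_sig3, h_rg3, h_r2, h_s, h_c3, h_s3, h_U0, h_U1, h_U2, h_G, h_Y0⟩

/-- Real mirror of `vPartT`. -/
noncomputable def vPartR (Q Y : ℝ) : ℝ × ℝ × ℝ × ℝ × ℝ × ℝ × ℝ × ℝ × ℝ :=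
  let xp2 := Y ^ (2 : ℕ)
  let aux1 := ((2 : ℕ) : ℝ) * xp2
  let sigp := aux1 + ((1649267441664 : ℕ) : ℝ) / 2 ^ (40 : ℕ)
  let gamp3 := xp2 - ((274877906944 : ℕ) : ℝ) / 2 ^ (40 : ℕ)
  let rp2 := Q ^ (2 : ℕ)
  let S := rp2 * sigp
  let rg3p := Q * gamp3
  let C3 := rp2 * rg3p
  let aux2 := S / 2 ^ (1 : ℕ)
  let aux3 := ((1099511627776 : ℕ) : ℝ) / 2 ^ (40 : ℕ) - aux2
  let aux4 := aux3 + C3
  let Gw := aux4
  let aux5 := (((98283 : ℕ) : ℝ) / 2 ^ (20 : ℕ)) * S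
  let aux6 := ((1099511627776 : ℕ) : ℝ) / 2 ^ (40 : ℕ) - aux5
  let aux7 := S * aux6
  let fS := (((543 : ℕ) : ℝ) / 2 ^ (13 : ℕ)) * aux7
  let r4 := rp2 ^ (2 : ℕ)
  (xp2, sigp, rp2, S, rg3p, C3, Gw, fS, r4)

/-- Soundness of the block `vPart`. -/
theorem mem_vPart {P : Pt} {t_Q t_Y : TM} {Q Y : ℝ}
    (h_Q : Mem P t_Q Q) (h_Y : Mem P t_Y Y)
    :
    Mem P (vPartT t_Q t_Y).1 (vPartR Q Y).1 ∧
    Mem P (vPartT t_Q t_Y).2.1 (vPartR Q Y).2.1 ∧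
    Mem P (vPartT t_Q t_Y).2.2.1 (vPartR Q Y).2.2.1 ∧
    Mem P (vPartT t_Q t_Y).2.2.2.1 (vPartR Q Y).2.2.2.1 ∧
    Mem P (vPartT t_Q t_Y).2.2.2.2.1 (vPartR Q Y).2.2.2.2.1 ∧
    Mem P (vPartT t_Q t_Y).2.2.2.2.2.1 (vPartR Q Y).2.2.2.2.2.1 ∧
    Mem P (vPartT t_Q t_Y).2.2.2.2.2.2.1 (vPartR Q Y).2.2.2.2.2.2.1 ∧
    Mem P (vPartT t_Q t_Y).2.2.2.2.2.2.2.1 (vPartR Q Y).2.2.2.2.2.2.2.1 ∧
    Mem P (vPartT t_Q t_Y).2.2.2.2.2.2.2.2 (vPartR Q Y).2.2.2.2.2.2.2.2 := by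
  have h_xp2 := mem_sq h_Y
  have h_aux1 := mem_smul 2 h_xp2
  have h_sigp := mem_addC 1649267441664 h_aux1
  have h_gamp3 := mem_subC 274877906944 h_xp2
  have h_rp2 := mem_sq h_Q
  have h_S := mem_mul h_rp2 h_sigp
  have h_rg3p := mem_mul h_Q h_gamp3
  have h_C3 := mem_mul h_rp2 h_rg3p
  have h_aux2 := mem_shr 1 h_S
  have h_aux3 := mem_rsubC 1099511627776 h_aux2
  have h_aux4 := mem_add h_aux3 h_C3
  have h_Gw := mem_nrm h_aux4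
  have h_aux5 := mem_scale 98283 20 h_S
  have h_aux6 := mem_rsubC 1099511627776 h_aux5
  have h_aux7 := mem_mul h_S h_aux6
  have h_fS := mem_scale 543 13 h_aux7
  have h_r4 := mem_sq h_rp2
  exact ⟨h_xp2, h_sigp, h_rp2, h_S, h_rg3p, h_C3, h_Gw, h_fS, h_r4⟩

/-- Real mirror of `alphasT`. -/
noncomputable def alphasR (X Y : ℝ) : ℝ × ℝ × ℝ × ℝ × ℝ × ℝ :=
  let aux1 := X * Y
  let z := aux1 / 3
  let hx := X / 2 ^ (1 : ℕ)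
  let hy := Y / 2 ^ (1 : ℕ)
  let z2 := ((2 : ℕ) : ℝ) * z
  let al0 := z2 + ((549755813888 : ℕ) : ℝ) / 2 ^ (40 : ℕ)
  let al1 := ((549755813888 : ℕ) : ℝ) / 2 ^ (40 : ℕ) - z2
  let aux2 := hx + hy
  let sxy := aux2
  let aux3 := sxy + z
  let aux4 := aux3
  let al2 := aux4 - ((274877906944 : ℕ) : ℝ) / 2 ^ (40 : ℕ)
  let aux5 := hy - hx
  let dyx := aux5
  let aux6 := dyx - z
  let aux7 := aux6
  let al3 := aux7 - ((274877906944 : ℕ) : ℝ) / 2 ^ (40 : ℕ)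
  let aux8 := hx - hy
  let dxy := aux8
  let aux9 := dxy - z
  let aux10 := aux9
  let al4 := aux10 - ((274877906944 : ℕ) : ℝ) / 2 ^ (40 : ℕ)
  let aux11 := z - sxy
  let aux12 := aux11
  let al5 := aux12 - ((274877906944 : ℕ) : ℝ) / 2 ^ (40 : ℕ)
  (al0, al1, al2, al3, al4, al5)

/-- Soundness of the block `alphas`. -/
theorem mem_alphas {P : Pt} {t_X t_Y : TM} {X Y : ℝ}
    (h_X : Mem P t_X X) (h_Y : Mem P t_Y Y)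
    :
    Mem P (alphasT t_X t_Y).1 (alphasR X Y).1 ∧
    Mem P (alphasT t_X t_Y).2.1 (alphasR X Y).2.1 ∧
    Mem P (alphasT t_X t_Y).2.2.1 (alphasR X Y).2.2.1 ∧
    Mem P (alphasT t_X t_Y).2.2.2.1 (alphasR X Y).2.2.2.1 ∧
    Mem P (alphasT t_X t_Y).2.2.2.2.1 (alphasR X Y).2.2.2.2.1 ∧
    Mem P (alphasT t_X t_Y).2.2.2.2.2 (alphasR X Y).2.2.2.2.2 := by
  have h_aux1 := mem_mul h_X h_Y
  have h_z := mem_third h_aux1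
  have h_hx := mem_shr 1 h_X
  have h_hy := mem_shr 1 h_Y
  have h_z2 := mem_smul 2 h_z
  have h_al0 := mem_addC 549755813888 h_z2
  have h_al1 := mem_rsubC 549755813888 h_z2
  have h_aux2 := mem_add h_hx h_hy
  have h_sxy := mem_nrm h_aux2
  have h_aux3 := mem_add h_sxy h_z
  have h_aux4 := mem_nrm h_aux3
  have h_al2 := mem_subC 274877906944 h_aux4
  have h_aux5 := mem_sub h_hy h_hx
  have h_dyx := mem_nrm h_aux5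
  have h_aux6 := mem_sub h_dyx h_z
  have h_aux7 := mem_nrm h_aux6
  have h_al3 := mem_subC 274877906944 h_aux7
  have h_aux8 := mem_sub h_hx h_hy
  have h_dxy := mem_nrm h_aux8
  have h_aux9 := mem_sub h_dxy h_z
  have h_aux10 := mem_nrm h_aux9
  have h_al4 := mem_subC 274877906944 h_aux10
  have h_aux11 := mem_sub h_z h_sxy
  have h_aux12 := mem_nrm h_aux11
  have h_al5 := mem_subC 274877906944 h_aux12
  exact ⟨h_al0, h_al1, h_al2, h_al3, h_al4, h_al5⟩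

/-- Real mirror of `matFT`. -/
noncomputable def matFR (U0 U1 U2 X Y y2 : ℝ) : ℝ × ℝ × ℝ × ℝ × ℝ × ℝ × ℝ × ℝ × ℝ × ℝ × ℝ × ℝ × ℝ × ℝ × ℝ × ℝ × ℝ × ℝ × ℝ :=
  let w0 := U0 ^ (2 : ℕ)
  let w1 := U1 ^ (2 : ℕ)
  let w2 := U2 ^ (2 : ℕ)
  let aux1 := w0 + w1
  let W0 := aux1 + w2
  let wx0 := w0 * Y
  let wx1 := w1 * Y
  let wx2 := w2 * Y
  let wxx0 := w0 * y2
  let wxx1 := w1 * y2
  let wxx2 := w2 * y2
  let wh0 := w0 / 2 ^ (1 : ℕ)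
  let wh1 := w1 / 2 ^ (1 : ℕ)
  let wh2 := w2 / 2 ^ (1 : ℕ)
  let wq0 := w0 / 2 ^ (2 : ℕ)
  let wq1 := w1 / 2 ^ (2 : ℕ)
  let wq2 := w2 / 2 ^ (2 : ℕ)
  let a00 := -w0
  let a01 := wh0 - wx0
  let a02 := wh0 + wx0
  let bc0 := wq0 + wxx0
  let b01 := bc0 - wx0
  let b02 := bc0 + wx0
  let a10 := -w1
  let a11 := wh1 - wx1
  let a12 := wh1 + wx1
  let bc1 := wq1 + wxx1
  let b11 := bc1 - wx1
  let b12 := bc1 + wx1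
  let a20 := -w2
  let a21 := wh2 - wx2
  let a22 := wh2 + wx2
  let bc2 := wq2 + wxx2
  let b21 := bc2 - wx2
  let b22 := bc2 + wx2
  let t0 := -U0
  let aux2 := ((549755813888 : ℕ) : ℝ) / 2 ^ (40 : ℕ) - X
  let t1 := aux2 * U1
  let aux3 := X + ((549755813888 : ℕ) : ℝ) / 2 ^ (40 : ℕ)
  let t2 := aux3 * U2
  let tx0 := t0 * Y
  let tx1 := t1 * Y
  let tx2 := t2 * Y
  let th0 := t0 / 2 ^ (1 : ℕ)
  let th1 := t1 / 2 ^ (1 : ℕ)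
  let th2 := t2 / 2 ^ (1 : ℕ)
  let d00 := -t0
  let d01 := th0 - tx0
  let d02 := th0 + tx0
  let d10 := -t1
  let d11 := th1 - tx1
  let d12 := th1 + tx1
  let d20 := -t2
  let d21 := th2 - tx2
  let d22 := th2 + tx2
  let aux4 := a00 + a11
  let aux5 := aux4 + a22
  let P1g0 := aux5
  let aux6 := w0 + b11
  let aux7 := aux6 + b22
  let P2g0 := aux7
  let aux8 := d00 + d11
  let aux9 := aux8 + d22
  let Y1g0 := aux9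
  let aux10 := a00 + a12
  let aux11 := aux10 + a21
  let P1g1 := aux11
  let aux12 := w0 + b12
  let aux13 := aux12 + b21
  let P2g1 := aux13
  let aux14 := d00 + d12
  let aux15 := aux14 + d21
  let Y1g1 := aux15
  let aux16 := a01 + a10
  let aux17 := aux16 + a22
  let P1g2 := aux17
  let aux18 := b01 + w1
  let aux19 := aux18 + b22
  let P2g2 := aux19
  let aux20 := d01 + d10
  let aux21 := aux20 + d22
  let Y1g2 := aux21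
  let aux22 := a01 + a12
  let aux23 := aux22 + a20
  let P1g3 := aux23
  let aux24 := b01 + b12
  let aux25 := aux24 + w2
  let P2g3 := aux25
  let aux26 := d01 + d12
  let aux27 := aux26 + d20
  let Y1g3 := aux27
  let aux28 := a02 + a10
  let aux29 := aux28 + a21
  let P1g4 := aux29
  let aux30 := b02 + w1
  let aux31 := aux30 + b21
  let P2g4 := aux31
  let aux32 := d02 + d10
  let aux33 := aux32 + d21
  let Y1g4 := aux33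
  let aux34 := a02 + a11
  let aux35 := aux34 + a20
  let P1g5 := aux35
  let aux36 := b02 + b11
  let aux37 := aux36 + w2
  let P2g5 := aux37
  let aux38 := d02 + d11
  let aux39 := aux38 + d20
  let Y1g5 := aux39
  (P1g0, P2g0, Y1g0, P1g1, P2g1, Y1g1, P1g2, P2g2, Y1g2, P1g3, P2g3, Y1g3, P1g4, P2g4, Y1g4, P1g5, P2g5, Y1g5, W0)

/-- Soundness of the block `matF`. -/
theorem mem_matF {P : Pt} {t_U0 t_U1 t_U2 t_X t_Y t_y2 : TM} {U0 U1 U2 X Y y2 : ℝ}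
    (h_U0 : Mem P t_U0 U0) (h_U1 : Mem P t_U1 U1) (h_U2 : Mem P t_U2 U2) (h_X : Mem P t_X X) (h_Y : Mem P t_Y Y) (h_y2 : Mem P t_y2 y2)
    :
    Mem P (matFT t_U0 t_U1 t_U2 t_X t_Y t_y2).1 (matFR U0 U1 U2 X Y y2).1 ∧
    Mem P (matFT t_U0 t_U1 t_U2 t_X t_Y t_y2).2.1 (matFR U0 U1 U2 X Y y2).2.1 ∧
    Mem P (matFT t_U0 t_U1 t_U2 t_X t_Y t_y2).2.2.1 (matFR U0 U1 U2 X Y y2).2.2.1 ∧
    Mem P (matFT t_U0 t_U1 t_U2 t_X t_Y t_y2).2.2.2.1 (matFR U0 U1 U2 X Y y2).2.2.2.1 ∧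
    Mem P (matFT t_U0 t_U1 t_U2 t_X t_Y t_y2).2.2.2.2.1 (matFR U0 U1 U2 X Y y2).2.2.2.2.1 ∧
    Mem P (matFT t_U0 t_U1 t_U2 t_X t_Y t_y2).2.2.2.2.2.1 (matFR U0 U1 U2 X Y y2).2.2.2.2.2.1 ∧
    Mem P (matFT t_U0 t_U1 t_U2 t_X t_Y t_y2).2.2.2.2.2.2.1 (matFR U0 U1 U2 X Y y2).2.2.2.2.2.2.1 ∧
    Mem P (matFT t_U0 t_U1 t_U2 t_X t_Y t_y2).2.2.2.2.2.2.2.1 (matFR U0 U1 U2 X Y y2).2.2.2.2.2.2.2.1 ∧
    Mem P (matFT t_U0 t_U1 t_U2 t_X t_Y t_y2).2.2.2.2.2.2.2.2.1 (matFR U0 U1 U2 X Y y2).2.2.2.2.2.2.2.2.1 ∧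
    Mem P (matFT t_U0 t_U1 t_U2 t_X t_Y t_y2).2.2.2.2.2.2.2.2.2.1 (matFR U0 U1 U2 X Y y2).2.2.2.2.2.2.2.2.2.1 ∧
    Mem P (matFT t_U0 t_U1 t_U2 t_X t_Y t_y2).2.2.2.2.2.2.2.2.2.2.1 (matFR U0 U1 U2 X Y y2).2.2.2.2.2.2.2.2.2.2.1 ∧
    Mem P (matFT t_U0 t_U1 t_U2 t_X t_Y t_y2).2.2.2.2.2.2.2.2.2.2.2.1 (matFR U0 U1 U2 X Y y2).2.2.2.2.2.2.2.2.2.2.2.1 ∧
    Mem P (matFT t_U0 t_U1 t_U2 t_X t_Y t_y2).2.2.2.2.2.2.2.2.2.2.2.2.1 (matFR U0 U1 U2 X Y y2).2.2.2.2.2.2.2.2.2.2.2.2.1 ∧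
    Mem P (matFT t_U0 t_U1 t_U2 t_X t_Y t_y2).2.2.2.2.2.2.2.2.2.2.2.2.2.1 (matFR U0 U1 U2 X Y y2).2.2.2.2.2.2.2.2.2.2.2.2.2.1 ∧
    Mem P (matFT t_U0 t_U1 t_U2 t_X t_Y t_y2).2.2.2.2.2.2.2.2.2.2.2.2.2.2.1 (matFR U0 U1 U2 X Y y2).2.2.2.2.2.2.2.2.2.2.2.2.2.2.1 ∧
    Mem P (matFT t_U0 t_U1 t_U2 t_X t_Y t_y2).2.2.2.2.2.2.2.2.2.2.2.2.2.2.2.1 (matFR U0 U1 U2 X Y y2).2.2.2.2.2.2.2.2.2.2.2.2.2.2.2.1 ∧
    Mem P (matFT t_U0 t_U1 t_U2 t_X t_Y t_y2).2.2.2.2.2.2.2.2.2.2.2.2.2.2.2.2.1 (matFR U0 U1 U2 X Y y2).2.2.2.2.2.2.2.2.2.2.2.2.2.2.2.2.1 ∧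
    Mem P (matFT t_U0 t_U1 t_U2 t_X t_Y t_y2).2.2.2.2.2.2.2.2.2.2.2.2.2.2.2.2.2.1 (matFR U0 U1 U2 X Y y2).2.2.2.2.2.2.2.2.2.2.2.2.2.2.2.2.2.1 ∧
    Mem P (matFT t_U0 t_U1 t_U2 t_X t_Y t_y2).2.2.2.2.2.2.2.2.2.2.2.2.2.2.2.2.2.2 (matFR U0 U1 U2 X Y y2).2.2.2.2.2.2.2.2.2.2.2.2.2.2.2.2.2.2 := by
  have h_w0 := mem_sq h_U0
  have h_w1 := mem_sq h_U1
  have h_w2 := mem_sq h_U2
  have h_aux1 := mem_add h_w0 h_w1
  have h_W0 := mem_add h_aux1 h_w2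
  have h_wx0 := mem_mul h_w0 h_Y
  have h_wx1 := mem_mul h_w1 h_Y
  have h_wx2 := mem_mul h_w2 h_Y
  have h_wxx0 := mem_mul h_w0 h_y2
  have h_wxx1 := mem_mul h_w1 h_y2
  have h_wxx2 := mem_mul h_w2 h_y2
  have h_wh0 := mem_shr 1 h_w0
  have h_wh1 := mem_shr 1 h_w1
  have h_wh2 := mem_shr 1 h_w2
  have h_wq0 := mem_shr 2 h_w0
  have h_wq1 := mem_shr 2 h_w1
  have h_wq2 := mem_shr 2 h_w2
  have h_a00 := mem_neg h_w0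
  have h_a01 := mem_sub h_wh0 h_wx0
  have h_a02 := mem_add h_wh0 h_wx0
  have h_bc0 := mem_add h_wq0 h_wxx0
  have h_b01 := mem_sub h_bc0 h_wx0
  have h_b02 := mem_add h_bc0 h_wx0
  have h_a10 := mem_neg h_w1
  have h_a11 := mem_sub h_wh1 h_wx1
  have h_a12 := mem_add h_wh1 h_wx1
  have h_bc1 := mem_add h_wq1 h_wxx1
  have h_b11 := mem_sub h_bc1 h_wx1
  have h_b12 := mem_add h_bc1 h_wx1
  have h_a20 := mem_neg h_w2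
  have h_a21 := mem_sub h_wh2 h_wx2
  have h_a22 := mem_add h_wh2 h_wx2
  have h_bc2 := mem_add h_wq2 h_wxx2
  have h_b21 := mem_sub h_bc2 h_wx2
  have h_b22 := mem_add h_bc2 h_wx2
  have h_t0 := mem_neg h_U0
  have h_aux2 := mem_rsubC 549755813888 h_X
  have h_t1 := mem_mul h_aux2 h_U1
  have h_aux3 := mem_addC 549755813888 h_X
  have h_t2 := mem_mul h_aux3 h_U2
  have h_tx0 := mem_mul h_t0 h_Y
  have h_tx1 := mem_mul h_t1 h_Y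
  have h_tx2 := mem_mul h_t2 h_Y
  have h_th0 := mem_shr 1 h_t0
  have h_th1 := mem_shr 1 h_t1
  have h_th2 := mem_shr 1 h_t2
  have h_d00 := mem_neg h_t0
  have h_d01 := mem_sub h_th0 h_tx0
  have h_d02 := mem_add h_th0 h_tx0
  have h_d10 := mem_neg h_t1
  have h_d11 := mem_sub h_th1 h_tx1
  have h_d12 := mem_add h_th1 h_tx1
  have h_d20 := mem_neg h_t2
  have h_d21 := mem_sub h_th2 h_tx2
  have h_d22 := mem_add h_th2 h_tx2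
  have h_aux4 := mem_add h_a00 h_a11
  have h_aux5 := mem_add h_aux4 h_a22
  have h_P1g0 := mem_nrm h_aux5
  have h_aux6 := mem_add h_w0 h_b11
  have h_aux7 := mem_add h_aux6 h_b22
  have h_P2g0 := mem_nrm h_aux7
  have h_aux8 := mem_add h_d00 h_d11
  have h_aux9 := mem_add h_aux8 h_d22
  have h_Y1g0 := mem_nrm h_aux9
  have h_aux10 := mem_add h_a00 h_a12
  have h_aux11 := mem_add h_aux10 h_a21
  have h_P1g1 := mem_nrm h_aux11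
  have h_aux12 := mem_add h_w0 h_b12
  have h_aux13 := mem_add h_aux12 h_b21
  have h_P2g1 := mem_nrm h_aux13
  have h_aux14 := mem_add h_d00 h_d12
  have h_aux15 := mem_add h_aux14 h_d21
  have h_Y1g1 := mem_nrm h_aux15
  have h_aux16 := mem_add h_a01 h_a10
  have h_aux17 := mem_add h_aux16 h_a22
  have h_P1g2 := mem_nrm h_aux17
  have h_aux18 := mem_add h_b01 h_w1
  have h_aux19 := mem_add h_aux18 h_b22
  have h_P2g2 := mem_nrm h_aux19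
  have h_aux20 := mem_add h_d01 h_d10
  have h_aux21 := mem_add h_aux20 h_d22
  have h_Y1g2 := mem_nrm h_aux21
  have h_aux22 := mem_add h_a01 h_a12
  have h_aux23 := mem_add h_aux22 h_a20
  have h_P1g3 := mem_nrm h_aux23
  have h_aux24 := mem_add h_b01 h_b12
  have h_aux25 := mem_add h_aux24 h_w2
  have h_P2g3 := mem_nrm h_aux25
  have h_aux26 := mem_add h_d01 h_d12
  have h_aux27 := mem_add h_aux26 h_d20
  have h_Y1g3 := mem_nrm h_aux27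
  have h_aux28 := mem_add h_a02 h_a10
  have h_aux29 := mem_add h_aux28 h_a21
  have h_P1g4 := mem_nrm h_aux29
  have h_aux30 := mem_add h_b02 h_w1
  have h_aux31 := mem_add h_aux30 h_b21
  have h_P2g4 := mem_nrm h_aux31
  have h_aux32 := mem_add h_d02 h_d10
  have h_aux33 := mem_add h_aux32 h_d21
  have h_Y1g4 := mem_nrm h_aux33
  have h_aux34 := mem_add h_a02 h_a11
  have h_aux35 := mem_add h_aux34 h_a20
  have h_P1g5 := mem_nrm h_aux35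
  have h_aux36 := mem_add h_b02 h_b11
  have h_aux37 := mem_add h_aux36 h_w2
  have h_P2g5 := mem_nrm h_aux37
  have h_aux38 := mem_add h_d02 h_d11
  have h_aux39 := mem_add h_aux38 h_d20
  have h_Y1g5 := mem_nrm h_aux39
  exact ⟨h_P1g0, h_P2g0, h_Y1g0, h_P1g1, h_P2g1, h_Y1g1, h_P1g2, h_P2g2, h_Y1g2, h_P1g3, h_P2g3, h_Y1g3, h_P1g4, h_P2g4, h_Y1g4, h_P1g5, h_P2g5, h_Y1g5, h_W0⟩

/-- Real mirror of `matGT`. -/
noncomputable def matGR (U0 U1 U2 X Y y2 : ℝ) : ℝ × ℝ × ℝ × ℝ × ℝ × ℝ × ℝ × ℝ × ℝ × ℝ × ℝ × ℝ × ℝ :=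
  let w0 := U0 ^ (2 : ℕ)
  let w1 := U1 ^ (2 : ℕ)
  let w2 := U2 ^ (2 : ℕ)
  let aux1 := w0 + w1
  let W0 := aux1 + w2
  let wx0 := w0 * Y
  let wx1 := w1 * Y
  let wx2 := w2 * Y
  let wxx0 := w0 * y2
  let wxx1 := w1 * y2
  let wxx2 := w2 * y2
  let wh0 := w0 / 2 ^ (1 : ℕ)
  let wh1 := w1 / 2 ^ (1 : ℕ)
  let wh2 := w2 / 2 ^ (1 : ℕ)
  let wq0 := w0 / 2 ^ (2 : ℕ)
  let wq1 := w1 / 2 ^ (2 : ℕ)
  let wq2 := w2 / 2 ^ (2 : ℕ)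
  let a00 := -w0
  let a01 := wh0 - wx0
  let a02 := wh0 + wx0
  let bc0 := wq0 + wxx0
  let b01 := bc0 - wx0
  let b02 := bc0 + wx0
  let a10 := -w1
  let a11 := wh1 - wx1
  let a12 := wh1 + wx1
  let bc1 := wq1 + wxx1
  let b11 := bc1 - wx1
  let b12 := bc1 + wx1
  let a20 := -w2
  let a21 := wh2 - wx2
  let a22 := wh2 + wx2
  let bc2 := wq2 + wxx2
  let b21 := bc2 - wx2
  let b22 := bc2 + wx2
  let aux2 := a00 + a11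
  let aux3 := aux2 + a22
  let P1g0 := aux3
  let aux4 := w0 + b11
  let aux5 := aux4 + b22
  let P2g0 := aux5
  let aux6 := a00 + a12
  let aux7 := aux6 + a21
  let P1g1 := aux7
  let aux8 := w0 + b12
  let aux9 := aux8 + b21
  let P2g1 := aux9
  let aux10 := a01 + a10
  let aux11 := aux10 + a22
  let P1g2 := aux11
  let aux12 := b01 + w1
  let aux13 := aux12 + b22
  let P2g2 := aux13
  let aux14 := a01 + a12
  let aux15 := aux14 + a20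
  let P1g3 := aux15
  let aux16 := b01 + b12
  let aux17 := aux16 + w2
  let P2g3 := aux17
  let aux18 := a02 + a10
  let aux19 := aux18 + a21
  let P1g4 := aux19
  let aux20 := b02 + w1
  let aux21 := aux20 + b21
  let P2g4 := aux21
  let aux22 := a02 + a11
  let aux23 := aux22 + a20
  let P1g5 := aux23
  let aux24 := b02 + b11
  let aux25 := aux24 + w2
  let P2g5 := aux25
  (P1g0, P2g0, P1g1, P2g1, P1g2, P2g2, P1g3, P2g3, P1g4, P2g4, P1g5, P2g5, W0)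

/-- Soundness of the block `matG`. -/
theorem mem_matG {P : Pt} {t_U0 t_U1 t_U2 t_X t_Y t_y2 : TM} {U0 U1 U2 X Y y2 : ℝ}
    (h_U0 : Mem P t_U0 U0) (h_U1 : Mem P t_U1 U1) (h_U2 : Mem P t_U2 U2) (h_X : Mem P t_X X) (h_Y : Mem P t_Y Y) (h_y2 : Mem P t_y2 y2)
    :
    Mem P (matGT t_U0 t_U1 t_U2 t_X t_Y t_y2).1 (matGR U0 U1 U2 X Y y2).1 ∧
    Mem P (matGT t_U0 t_U1 t_U2 t_X t_Y t_y2).2.1 (matGR U0 U1 U2 X Y y2).2.1 ∧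
    Mem P (matGT t_U0 t_U1 t_U2 t_X t_Y t_y2).2.2.1 (matGR U0 U1 U2 X Y y2).2.2.1 ∧
    Mem P (matGT t_U0 t_U1 t_U2 t_X t_Y t_y2).2.2.2.1 (matGR U0 U1 U2 X Y y2).2.2.2.1 ∧
    Mem P (matGT t_U0 t_U1 t_U2 t_X t_Y t_y2).2.2.2.2.1 (matGR U0 U1 U2 X Y y2).2.2.2.2.1 ∧
    Mem P (matGT t_U0 t_U1 t_U2 t_X t_Y t_y2).2.2.2.2.2.1 (matGR U0 U1 U2 X Y y2).2.2.2.2.2.1 ∧
    Mem P (matGT t_U0 t_U1 t_U2 t_X t_Y t_y2).2.2.2.2.2.2.1 (matGR U0 U1 U2 X Y y2).2.2.2.2.2.2.1 ∧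
    Mem P (matGT t_U0 t_U1 t_U2 t_X t_Y t_y2).2.2.2.2.2.2.2.1 (matGR U0 U1 U2 X Y y2).2.2.2.2.2.2.2.1 ∧
    Mem P (matGT t_U0 t_U1 t_U2 t_X t_Y t_y2).2.2.2.2.2.2.2.2.1 (matGR U0 U1 U2 X Y y2).2.2.2.2.2.2.2.2.1 ∧
    Mem P (matGT t_U0 t_U1 t_U2 t_X t_Y t_y2).2.2.2.2.2.2.2.2.2.1 (matGR U0 U1 U2 X Y y2).2.2.2.2.2.2.2.2.2.1 ∧
    Mem P (matGT t_U0 t_U1 t_U2 t_X t_Y t_y2).2.2.2.2.2.2.2.2.2.2.1 (matGR U0 U1 U2 X Y y2).2.2.2.2.2.2.2.2.2.2.1 ∧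
    Mem P (matGT t_U0 t_U1 t_U2 t_X t_Y t_y2).2.2.2.2.2.2.2.2.2.2.2.1 (matGR U0 U1 U2 X Y y2).2.2.2.2.2.2.2.2.2.2.2.1 ∧
    Mem P (matGT t_U0 t_U1 t_U2 t_X t_Y t_y2).2.2.2.2.2.2.2.2.2.2.2.2 (matGR U0 U1 U2 X Y y2).2.2.2.2.2.2.2.2.2.2.2.2 := by
  have h_w0 := mem_sq h_U0
  have h_w1 := mem_sq h_U1
  have h_w2 := mem_sq h_U2
  have h_aux1 := mem_add h_w0 h_w1
  have h_W0 := mem_add h_aux1 h_w2
  have h_wx0 := mem_mul h_w0 h_Y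
  have h_wx1 := mem_mul h_w1 h_Y
  have h_wx2 := mem_mul h_w2 h_Y
  have h_wxx0 := mem_mul h_w0 h_y2
  have h_wxx1 := mem_mul h_w1 h_y2
  have h_wxx2 := mem_mul h_w2 h_y2
  have h_wh0 := mem_shr 1 h_w0
  have h_wh1 := mem_shr 1 h_w1
  have h_wh2 := mem_shr 1 h_w2
  have h_wq0 := mem_shr 2 h_w0
  have h_wq1 := mem_shr 2 h_w1
  have h_wq2 := mem_shr 2 h_w2
  have h_a00 := mem_neg h_w0
  have h_a01 := mem_sub h_wh0 h_wx0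
  have h_a02 := mem_add h_wh0 h_wx0
  have h_bc0 := mem_add h_wq0 h_wxx0
  have h_b01 := mem_sub h_bc0 h_wx0
  have h_b02 := mem_add h_bc0 h_wx0
  have h_a10 := mem_neg h_w1
  have h_a11 := mem_sub h_wh1 h_wx1
  have h_a12 := mem_add h_wh1 h_wx1
  have h_bc1 := mem_add h_wq1 h_wxx1
  have h_b11 := mem_sub h_bc1 h_wx1
  have h_b12 := mem_add h_bc1 h_wx1
  have h_a20 := mem_neg h_w2
  have h_a21 := mem_sub h_wh2 h_wx2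
  have h_a22 := mem_add h_wh2 h_wx2
  have h_bc2 := mem_add h_wq2 h_wxx2
  have h_b21 := mem_sub h_bc2 h_wx2
  have h_b22 := mem_add h_bc2 h_wx2
  have h_aux2 := mem_add h_a00 h_a11
  have h_aux3 := mem_add h_aux2 h_a22
  have h_P1g0 := mem_nrm h_aux3
  have h_aux4 := mem_add h_w0 h_b11
  have h_aux5 := mem_add h_aux4 h_b22
  have h_P2g0 := mem_nrm h_aux5
  have h_aux6 := mem_add h_a00 h_a12
  have h_aux7 := mem_add h_aux6 h_a21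
  have h_P1g1 := mem_nrm h_aux7
  have h_aux8 := mem_add h_w0 h_b12
  have h_aux9 := mem_add h_aux8 h_b21
  have h_P2g1 := mem_nrm h_aux9
  have h_aux10 := mem_add h_a01 h_a10
  have h_aux11 := mem_add h_aux10 h_a22
  have h_P1g2 := mem_nrm h_aux11
  have h_aux12 := mem_add h_b01 h_w1
  have h_aux13 := mem_add h_aux12 h_b22
  have h_P2g2 := mem_nrm h_aux13
  have h_aux14 := mem_add h_a01 h_a12
  have h_aux15 := mem_add h_aux14 h_a20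
  have h_P1g3 := mem_nrm h_aux15
  have h_aux16 := mem_add h_b01 h_b12
  have h_aux17 := mem_add h_aux16 h_w2
  have h_P2g3 := mem_nrm h_aux17
  have h_aux18 := mem_add h_a02 h_a10
  have h_aux19 := mem_add h_aux18 h_a21
  have h_P1g4 := mem_nrm h_aux19
  have h_aux20 := mem_add h_b02 h_w1
  have h_aux21 := mem_add h_aux20 h_b21
  have h_P2g4 := mem_nrm h_aux21
  have h_aux22 := mem_add h_a02 h_a11
  have h_aux23 := mem_add h_aux22 h_a20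
  have h_P1g5 := mem_nrm h_aux23
  have h_aux24 := mem_add h_b02 h_b11
  have h_aux25 := mem_add h_aux24 h_w2
  have h_P2g5 := mem_nrm h_aux25
  exact ⟨h_P1g0, h_P2g0, h_P1g1, h_P2g1, h_P1g2, h_P2g2, h_P1g3, h_P2g3, h_P1g4, h_P2g4, h_P1g5, h_P2g5, h_W0⟩

/-- Real mirror of `permAT`. -/
noncomputable def permAR (R Q al : ℝ) : ℝ × ℝ :=
  let ra := R * al
  let a := Q * ra
  let m := a + ((1099511627776 : ℕ) : ℝ) / 2 ^ (40 : ℕ)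
  (ra, m)

/-- Soundness of the block `permA`. -/
theorem mem_permA {P : Pt} {t_R t_Q t_al : TM} {R Q al : ℝ}
    (h_R : Mem P t_R R) (h_Q : Mem P t_Q Q) (h_al : Mem P t_al al)
    :
    Mem P (permAT t_R t_Q t_al).1 (permAR R Q al).1 ∧
    Mem P (permAT t_R t_Q t_al).2 (permAR R Q al).2 := by
  have h_ra := mem_mul h_R h_al
  have h_a := mem_mul h_Q h_ra
  have h_m := mem_addC 1099511627776 h_a
  exact ⟨h_ra, h_m⟩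

/-- Real mirror of `permBT`. -/
noncomputable def permBR (ra m al W0 Y0 P1 P2 Y1 : ℝ) : ℝ × ℝ × ℝ × ℝ × ℝ :=
  let ib := m⁻¹
  let ib2 := ib ^ (2 : ℕ)
  let ib3 := ib2 * ib
  let ra2 := ra ^ (2 : ℕ)
  let aux1 := ra * P1
  let aux2 := ((2 : ℕ) : ℝ) * aux1
  let aux3 := P2 - aux2
  let aux4 := ra2 * W0
  let aux5 := aux3 + aux4
  let Qt := aux5
  let aux6 := ra * Y0
  let aux7 := Y1 - aux6
  let Lt := aux7
  let alsq := al ^ (2 : ℕ)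
  let Ta := alsq * Qt
  let Ka := Ta * ib
  let aux8 := ((2 : ℕ) : ℝ) * ib
  let aux9 := ib2 + aux8
  let Kb := alsq * aux9
  let aux10 := Lt ^ (2 : ℕ)
  let Kc := ib * aux10
  let aux11 := al * Lt
  let aux12 := ib2 + ib
  let aux13 := Qt * aux12
  let Kd := aux11 * aux13
  let aux14 := Ta * Qt
  let aux15 := ((2 : ℕ) : ℝ) * ib2
  let aux16 := ib3 + aux15
  let aux17 := ((3 : ℕ) : ℝ) * ib
  let aux18 := aux16 + aux17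
  let Ke := aux14 * aux18
  (Ka, Kb, Kc, Kd, Ke)

/-- Soundness of the block `permB`. -/
theorem mem_permB {P : Pt} {t_ra t_m t_al t_W0 t_Y0 t_P1 t_P2 t_Y1 : TM} {ra m al W0 Y0 P1 P2 Y1 : ℝ}
    (h_ra : Mem P t_ra ra) (h_m : Mem P t_m m) (h_al : Mem P t_al al) (h_W0 : Mem P t_W0 W0) (h_Y0 : Mem P t_Y0 Y0) (h_P1 : Mem P t_P1 P1) (h_P2 : Mem P t_P2 P2) (h_Y1 : Mem P t_Y1 Y1)
    (hpos_m : posT t_m = true)
    :
    Mem P (permBT t_ra t_m t_al t_W0 t_Y0 t_P1 t_P2 t_Y1).1 (permBR ra m al W0 Y0 P1 P2 Y1).1 ∧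
    Mem P (permBT t_ra t_m t_al t_W0 t_Y0 t_P1 t_P2 t_Y1).2.1 (permBR ra m al W0 Y0 P1 P2 Y1).2.1 ∧
    Mem P (permBT t_ra t_m t_al t_W0 t_Y0 t_P1 t_P2 t_Y1).2.2.1 (permBR ra m al W0 Y0 P1 P2 Y1).2.2.1 ∧
    Mem P (permBT t_ra t_m t_al t_W0 t_Y0 t_P1 t_P2 t_Y1).2.2.2.1 (permBR ra m al W0 Y0 P1 P2 Y1).2.2.2.1 ∧
    Mem P (permBT t_ra t_m t_al t_W0 t_Y0 t_P1 t_P2 t_Y1).2.2.2.2 (permBR ra m al W0 Y0 P1 P2 Y1).2.2.2.2 := by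
  have h_ib := mem_inv h_m hpos_m
  have h_ib2 := mem_sq h_ib
  have h_ib3 := mem_mul h_ib2 h_ib
  have h_ra2 := mem_sq h_ra
  have h_aux1 := mem_mul h_ra h_P1
  have h_aux2 := mem_smul 2 h_aux1
  have h_aux3 := mem_sub h_P2 h_aux2
  have h_aux4 := mem_mul h_ra2 h_W0
  have h_aux5 := mem_add h_aux3 h_aux4
  have h_Qt := mem_nrm h_aux5
  have h_aux6 := mem_mul h_ra h_Y0
  have h_aux7 := mem_sub h_Y1 h_aux6
  have h_Lt := mem_nrm h_aux7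
  have h_alsq := mem_sq h_al
  have h_Ta := mem_mul h_alsq h_Qt
  have h_Ka := mem_mul h_Ta h_ib
  have h_aux8 := mem_smul 2 h_ib
  have h_aux9 := mem_add h_ib2 h_aux8
  have h_Kb := mem_mul h_alsq h_aux9
  have h_aux10 := mem_sq h_Lt
  have h_Kc := mem_mul h_ib h_aux10
  have h_aux11 := mem_mul h_al h_Lt
  have h_aux12 := mem_add h_ib2 h_ib
  have h_aux13 := mem_mul h_Qt h_aux12
  have h_Kd := mem_mul h_aux11 h_aux13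
  have h_aux14 := mem_mul h_Ta h_Qt
  have h_aux15 := mem_smul 2 h_ib2
  have h_aux16 := mem_add h_ib3 h_aux15
  have h_aux17 := mem_smul 3 h_ib
  have h_aux18 := mem_add h_aux16 h_aux17
  have h_Ke := mem_mul h_aux14 h_aux18
  exact ⟨h_Ka, h_Kb, h_Kc, h_Kd, h_Ke⟩

/-- Real mirror of `permGT`. -/
noncomputable def permGR (ra m al W0 P1 P2 : ℝ) : ℝ :=
  let ib := m⁻¹
  let ra2 := ra ^ (2 : ℕ)
  let aux1 := ra * P1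
  let aux2 := ((2 : ℕ) : ℝ) * aux1
  let aux3 := P2 - aux2
  let aux4 := ra2 * W0
  let aux5 := aux3 + aux4
  let Qt := aux5
  let alsq := al ^ (2 : ℕ)
  let Ta := alsq * Qt
  let Ka := Ta * ib
  Ka

/-- Soundness of the block `permG`. -/
theorem mem_permG {P : Pt} {t_ra t_m t_al t_W0 t_P1 t_P2 : TM} {ra m al W0 P1 P2 : ℝ}
    (h_ra : Mem P t_ra ra) (h_m : Mem P t_m m) (h_al : Mem P t_al al) (h_W0 : Mem P t_W0 W0) (h_P1 : Mem P t_P1 P1) (h_P2 : Mem P t_P2 P2)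
    (hpos_m : posT t_m = true)
    :
    Mem P (permGT t_ra t_m t_al t_W0 t_P1 t_P2) (permGR ra m al W0 P1 P2) := by
  have h_ib := mem_inv h_m hpos_m
  have h_ra2 := mem_sq h_ra
  have h_aux1 := mem_mul h_ra h_P1
  have h_aux2 := mem_smul 2 h_aux1
  have h_aux3 := mem_sub h_P2 h_aux2
  have h_aux4 := mem_mul h_ra2 h_W0
  have h_aux5 := mem_add h_aux3 h_aux4
  have h_Qt := mem_nrm h_aux5
  have h_alsq := mem_sq h_al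
  have h_Ta := mem_mul h_alsq h_Qt
  have h_Ka := mem_mul h_Ta h_ib
  exact h_Ka

/-- Real mirror of `hPartT`. -/
noncomputable def hPartR (sig sig3 rg3 s s3 : ℝ) : ℝ × ℝ × ℝ :=
  let aux1 := sig3 * s3
  let aux2 := aux1 / 2 ^ (1 : ℕ)
  let aux3 := sig3 / 2 ^ (1 : ℕ)
  let aux4 := aux2 - aux3
  let Hr := aux4 - rg3
  let aux5 := sig3 - rg3
  let aux6 := ((2199023255552 : ℕ) : ℝ) / 2 ^ (40 : ℕ) - s3
  let aux7 := aux5 * aux6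
  let Lam1 := aux7 / 2 ^ (1 : ℕ)
  let aux8 := sig * s
  let aux9 := (((3 : ℕ) : ℝ) / 2 ^ (6 : ℕ)) * s
  let aux10 := ((1099511627776 : ℕ) : ℝ) / 2 ^ (40 : ℕ) - aux9
  let f2 := aux8 * aux10
  (Hr, Lam1, f2)

/-- Soundness of the block `hPart`. -/
theorem mem_hPart {P : Pt} {t_sig t_sig3 t_rg3 t_s t_s3 : TM} {sig sig3 rg3 s s3 : ℝ}
    (h_sig : Mem P t_sig sig) (h_sig3 : Mem P t_sig3 sig3) (h_rg3 : Mem P t_rg3 rg3) (h_s : Mem P t_s s) (h_s3 : Mem P t_s3 s3)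
    :
    Mem P (hPartT t_sig t_sig3 t_rg3 t_s t_s3).1 (hPartR sig sig3 rg3 s s3).1 ∧
    Mem P (hPartT t_sig t_sig3 t_rg3 t_s t_s3).2.1 (hPartR sig sig3 rg3 s s3).2.1 ∧
    Mem P (hPartT t_sig t_sig3 t_rg3 t_s t_s3).2.2 (hPartR sig sig3 rg3 s s3).2.2 := by
  have h_aux1 := mem_mul h_sig3 h_s3
  have h_aux2 := mem_shr 1 h_aux1
  have h_aux3 := mem_shr 1 h_sig3
  have h_aux4 := mem_sub h_aux2 h_aux3
  have h_Hr := mem_sub h_aux4 h_rg3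
  have h_aux5 := mem_sub h_sig3 h_rg3
  have h_aux6 := mem_rsubC 2199023255552 h_s3
  have h_aux7 := mem_mul h_aux5 h_aux6
  have h_Lam1 := mem_shr 1 h_aux7
  have h_aux8 := mem_mul h_sig h_s
  have h_aux9 := mem_scale 3 6 h_s
  have h_aux10 := mem_rsubC 1099511627776 h_aux9
  have h_f2 := mem_mul h_aux8 h_aux10
  exact ⟨h_Hr, h_Lam1, h_f2⟩

/-- Real mirror of `polysT`. -/
noncomputable def polysR (sig sig3 rg3 c3 s3 : ℝ) : ℝ × ℝ × ℝ :=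
  let s3c3 := s3 * c3
  let s3sq := s3 ^ (2 : ℕ)
  let s3cu := s3sq * s3
  let rc := rg3 * c3
  let c3sq := c3 ^ (2 : ℕ)
  let s3c := s3sq * c3
  let hs := s3c3 / 2 ^ (1 : ℕ)
  let aux1 := c3 + ((1099511627776 : ℕ) : ℝ) / 2 ^ (40 : ℕ)
  let aux2 := ((2 : ℕ) : ℝ) * s3
  let aux3 := aux1 - aux2
  let aux4 := aux3
  let aux5 := aux4 - hs
  let aux6 := aux5
  let aux7 := (((3 : ℕ) : ℝ) / 2 ^ (2 : ℕ)) * s3sq
  let aux8 := aux6 + aux7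
  let aux9 := aux8
  let h31 := sig * aux9
  let aux10 := s3 / 2 ^ (2 : ℕ)
  let aux11 := c3 + aux10
  let aux12 := aux11
  let aux13 := aux12 - hs
  let aux14 := aux13
  let aux15 := s3sq / 2 ^ (2 : ℕ)
  let aux16 := aux14 - aux15
  let aux17 := aux16
  let aux18 := s3cu / 2 ^ (3 : ℕ)
  let aux19 := aux17 + aux18
  let aux20 := aux19
  let aux21 := sig * aux20
  let aux22 := ((4 : ℕ) : ℝ) * rg3
  let aux23 := rc - aux22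
  let aux24 := aux23
  let aux25 := aux24 + aux21
  let h61 := aux25
  let aux26 := s3c3 / 2 ^ (2 : ℕ)
  let aux27 := s3 + aux26
  let aux28 := aux27
  let aux29 := s3cu / 2 ^ (2 : ℕ)
  let aux30 := aux28 + aux29
  let aux31 := aux30
  let aux32 := sig * aux31
  let aux33 := c3 / 2 ^ (1 : ℕ)
  let aux34 := ((2199023255552 : ℕ) : ℝ) / 2 ^ (40 : ℕ) - aux33
  let aux35 := aux34 - c3sq
  let aux36 := aux35
  let aux37 := (((5 : ℕ) : ℝ) / 2 ^ (1 : ℕ)) * s3sq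
  let aux38 := aux36 + aux37
  let aux39 := aux38
  let aux40 := (((5 : ℕ) : ℝ) / 2 ^ (3 : ℕ)) * s3c
  let aux41 := aux39 + aux40
  let aux42 := aux41
  let aux43 := sig3 * aux42
  let aux44 := ((2 : ℕ) : ℝ) * rc
  let aux45 := aux44 - rg3
  let aux46 := aux45
  let aux47 := aux46 - aux32
  let aux48 := aux47
  let aux49 := aux48 + aux43
  let h71 := aux49
  (h31, h61, h71)

/-- Soundness of the block `polys`. -/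
theorem mem_polys {P : Pt} {t_sig t_sig3 t_rg3 t_c3 t_s3 : TM} {sig sig3 rg3 c3 s3 : ℝ}
    (h_sig : Mem P t_sig sig) (h_sig3 : Mem P t_sig3 sig3) (h_rg3 : Mem P t_rg3 rg3) (h_c3 : Mem P t_c3 c3) (h_s3 : Mem P t_s3 s3)
    :
    Mem P (polysT t_sig t_sig3 t_rg3 t_c3 t_s3).1 (polysR sig sig3 rg3 c3 s3).1 ∧
    Mem P (polysT t_sig t_sig3 t_rg3 t_c3 t_s3).2.1 (polysR sig sig3 rg3 c3 s3).2.1 ∧
    Mem P (polysT t_sig t_sig3 t_rg3 t_c3 t_s3).2.2 (polysR sig sig3 rg3 c3 s3).2.2 := by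
  have h_s3c3 := mem_mul h_s3 h_c3
  have h_s3sq := mem_sq h_s3
  have h_s3cu := mem_mul h_s3sq h_s3
  have h_rc := mem_mul h_rg3 h_c3
  have h_c3sq := mem_sq h_c3
  have h_s3c := mem_mul h_s3sq h_c3
  have h_hs := mem_shr 1 h_s3c3
  have h_aux1 := mem_addC 1099511627776 h_c3
  have h_aux2 := mem_smul 2 h_s3
  have h_aux3 := mem_sub h_aux1 h_aux2
  have h_aux4 := mem_nrm h_aux3
  have h_aux5 := mem_sub h_aux4 h_hs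
  have h_aux6 := mem_nrm h_aux5
  have h_aux7 := mem_scale 3 2 h_s3sq
  have h_aux8 := mem_add h_aux6 h_aux7
  have h_aux9 := mem_nrm h_aux8
  have h_h31 := mem_mul h_sig h_aux9
  have h_aux10 := mem_shr 2 h_s3
  have h_aux11 := mem_add h_c3 h_aux10
  have h_aux12 := mem_nrm h_aux11
  have h_aux13 := mem_sub h_aux12 h_hs
  have h_aux14 := mem_nrm h_aux13
  have h_aux15 := mem_shr 2 h_s3sq
  have h_aux16 := mem_sub h_aux14 h_aux15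
  have h_aux17 := mem_nrm h_aux16
  have h_aux18 := mem_shr 3 h_s3cu
  have h_aux19 := mem_add h_aux17 h_aux18
  have h_aux20 := mem_nrm h_aux19
  have h_aux21 := mem_mul h_sig h_aux20
  have h_aux22 := mem_smul 4 h_rg3
  have h_aux23 := mem_sub h_rc h_aux22
  have h_aux24 := mem_nrm h_aux23
  have h_aux25 := mem_add h_aux24 h_aux21
  have h_h61 := mem_nrm h_aux25
  have h_aux26 := mem_shr 2 h_s3c3
  have h_aux27 := mem_add h_s3 h_aux26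
  have h_aux28 := mem_nrm h_aux27
  have h_aux29 := mem_shr 2 h_s3cu
  have h_aux30 := mem_add h_aux28 h_aux29
  have h_aux31 := mem_nrm h_aux30
  have h_aux32 := mem_mul h_sig h_aux31
  have h_aux33 := mem_shr 1 h_c3
  have h_aux34 := mem_rsubC 2199023255552 h_aux33
  have h_aux35 := mem_sub h_aux34 h_c3sq
  have h_aux36 := mem_nrm h_aux35
  have h_aux37 := mem_scale 5 1 h_s3sq
  have h_aux38 := mem_add h_aux36 h_aux37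
  have h_aux39 := mem_nrm h_aux38
  have h_aux40 := mem_scale 5 3 h_s3c
  have h_aux41 := mem_add h_aux39 h_aux40
  have h_aux42 := mem_nrm h_aux41
  have h_aux43 := mem_mul h_sig3 h_aux42
  have h_aux44 := mem_smul 2 h_rc
  have h_aux45 := mem_sub h_aux44 h_rg3
  have h_aux46 := mem_nrm h_aux45
  have h_aux47 := mem_sub h_aux46 h_aux32
  have h_aux48 := mem_nrm h_aux47
  have h_aux49 := mem_add h_aux48 h_aux43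
  have h_h71 := mem_nrm h_aux49
  exact ⟨h_h31, h_h61, h_h71⟩

/-- Real mirror of `finalFT`. -/
noncomputable def finalFR (sig rg3 r2 s G Hr Lam1 f2 h31 h61 h71 rp2 S C3 Gw fS r4 tau B1 B2 B4 B5 B6 : ℝ) : ℝ :=
  let aux1 := tau * Lam1
  let aux2 := Hr - aux1
  let aux3 := rp2 * B1
  let n1 := aux2 + aux3
  let aux4 := r2 * n1
  let nhat := aux4 + ((1099511627776 : ℕ) : ℝ) / 2 ^ (40 : ℕ)
  let aux5 := (((9 : ℕ) : ℝ) / 2 ^ (6 : ℕ)) * s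
  let aux6 := ((2199023255552 : ℕ) : ℝ) / 2 ^ (40 : ℕ) - aux5
  let f1 := sig * aux6
  let hsig := sig / 2 ^ (1 : ℕ)
  let aux7 := hsig - rg3
  let aux8 := n1 + aux7
  let T1 := (((3 : ℕ) : ℝ) / 2 ^ (1 : ℕ)) * aux8
  let aux9 := f1 * nhat
  let T2 := (((3 : ℕ) : ℝ) / 2 ^ (6 : ℕ)) * aux9
  let aux10 := G * Gw
  let aux11 := aux10 * B2
  let T3 := ((3 : ℕ) : ℝ) * aux11
  let aux12 := rg3 - hsig
  let T4 := aux12 * fS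
  let aux13 := G * sig
  let aux14 := tau - fS
  let aux15 := aux13 * aux14
  let T5 := (((5 : ℕ) : ℝ) / 2 ^ (5 : ℕ)) * aux15
  let aux16 := ((3 : ℕ) : ℝ) * rg3
  let aux17 := (((3 : ℕ) : ℝ) / 2 ^ (6 : ℕ)) * f2
  let aux18 := aux16 - aux17
  let T6 := (((5 : ℕ) : ℝ) / 2 ^ (4 : ℕ)) * aux18
  let aux19 := ((4 : ℕ) : ℝ) * B6
  let aux20 := tau * h31
  let aux21 := ((4 : ℕ) : ℝ) * aux20
  let aux22 := aux19 + aux21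
  let aux23 := rp2 * B4
  let aux24 := ((4 : ℕ) : ℝ) * aux23
  let aux25 := aux22 - aux24
  let aux26 := S * h61
  let aux27 := aux25 + aux26
  let aux28 := C3 * h71
  let aux29 := ((9 : ℕ) : ℝ) * aux28
  let aux30 := aux27 - aux29
  let aux31 := r4 * B5
  let aux32 := aux30 + aux31
  let T7 := (((3 : ℕ) : ℝ) / 2 ^ (6 : ℕ)) * aux32
  let aux33 := T1 - T2
  let aux34 := aux33 + T3
  let aux35 := aux34 + T4
  let aux36 := aux35 + T5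
  let aux37 := aux36 + T6
  let aux38 := aux37 - T7
  aux38

/-- Soundness of the block `finalF`. -/
theorem mem_finalF {P : Pt} {t_sig t_rg3 t_r2 t_s t_G t_Hr t_Lam1 t_f2 t_h31 t_h61 t_h71 t_rp2 t_S t_C3 t_Gw t_fS t_r4 t_tau t_B1 t_B2 t_B4 t_B5 t_B6 : TM} {sig rg3 r2 s G Hr Lam1 f2 h31 h61 h71 rp2 S C3 Gw fS r4 tau B1 B2 B4 B5 B6 : ℝ}
    (h_sig : Mem P t_sig sig) (h_rg3 : Mem P t_rg3 rg3) (h_r2 : Mem P t_r2 r2) (h_s : Mem P t_s s) (h_G : Mem P t_G G) (h_Hr : Mem P t_Hr Hr) (h_Lam1 : Mem P t_Lam1 Lam1) (h_f2 : Mem P t_f2 f2) (h_h31 : Mem P t_h31 h31) (h_h61 : Mem P t_h61 h61) (h_h71 : Mem P t_h71 h71) (h_rp2 : Mem P t_rp2 rp2) (h_S : Mem P t_S S) (h_C3 : Mem P t_C3 C3) (h_Gw : Mem P t_Gw Gw) (h_fS : Mem P t_fS fS) (h_r4 : Mem P t_r4 r4) (h_tau : Mem P t_tau tau) (h_B1 : Mem P t_B1 B1) (h_B2 : Mem P t_B2 B2) (h_B4 : Mem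 P t_B4 B4) (h_B5 : Mem P t_B5 B5) (h_B6 : Mem P t_B6 B6)
    :
    Mem P (finalFT t_sig t_rg3 t_r2 t_s t_G t_Hr t_Lam1 t_f2 t_h31 t_h61 t_h71 t_rp2 t_S t_C3 t_Gw t_fS t_r4 t_tau t_B1 t_B2 t_B4 t_B5 t_B6) (finalFR sig rg3 r2 s G Hr Lam1 f2 h31 h61 h71 rp2 S C3 Gw fS r4 tau B1 B2 B4 B5 B6) := by
  have h_aux1 := mem_mul h_tau h_Lam1
  have h_aux2 := mem_sub h_Hr h_aux1
  have h_aux3 := mem_mul h_rp2 h_B1
  have h_n1 := mem_add h_aux2 h_aux3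
  have h_aux4 := mem_mul h_r2 h_n1
  have h_nhat := mem_addC 1099511627776 h_aux4
  have h_aux5 := mem_scale 9 6 h_s
  have h_aux6 := mem_rsubC 2199023255552 h_aux5
  have h_f1 := mem_mul h_sig h_aux6
  have h_hsig := mem_shr 1 h_sig
  have h_aux7 := mem_sub h_hsig h_rg3
  have h_aux8 := mem_add h_n1 h_aux7
  have h_T1 := mem_scale 3 1 h_aux8
  have h_aux9 := mem_mul h_f1 h_nhat
  have h_T2 := mem_scale 3 6 h_aux9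
  have h_aux10 := mem_mul h_G h_Gw
  have h_aux11 := mem_mul h_aux10 h_B2
  have h_T3 := mem_smul 3 h_aux11
  have h_aux12 := mem_sub h_rg3 h_hsig
  have h_T4 := mem_mul h_aux12 h_fS
  have h_aux13 := mem_mul h_G h_sig
  have h_aux14 := mem_sub h_tau h_fS
  have h_aux15 := mem_mul h_aux13 h_aux14
  have h_T5 := mem_scale 5 5 h_aux15
  have h_aux16 := mem_smul 3 h_rg3
  have h_aux17 := mem_scale 3 6 h_f2
  have h_aux18 := mem_sub h_aux16 h_aux17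
  have h_T6 := mem_scale 5 4 h_aux18
  have h_aux19 := mem_smul 4 h_B6
  have h_aux20 := mem_mul h_tau h_h31
  have h_aux21 := mem_smul 4 h_aux20
  have h_aux22 := mem_add h_aux19 h_aux21
  have h_aux23 := mem_mul h_rp2 h_B4
  have h_aux24 := mem_smul 4 h_aux23
  have h_aux25 := mem_sub h_aux22 h_aux24
  have h_aux26 := mem_mul h_S h_h61
  have h_aux27 := mem_add h_aux25 h_aux26
  have h_aux28 := mem_mul h_C3 h_h71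
  have h_aux29 := mem_smul 9 h_aux28
  have h_aux30 := mem_sub h_aux27 h_aux29
  have h_aux31 := mem_mul h_r4 h_B5
  have h_aux32 := mem_add h_aux30 h_aux31
  have h_T7 := mem_scale 3 6 h_aux32
  have h_aux33 := mem_sub h_T1 h_T2
  have h_aux34 := mem_add h_aux33 h_T3
  have h_aux35 := mem_add h_aux34 h_T4
  have h_aux36 := mem_add h_aux35 h_T5
  have h_aux37 := mem_add h_aux36 h_T6
  have h_aux38 := mem_sub h_aux37 h_T7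
  exact h_aux38

/-- Real mirror of `progFT`. -/
noncomputable def progFR (R X Q Y : ℝ) : ℝ × ℝ × ℝ × ℝ × ℝ × ℝ × ℝ × ℝ :=
  let ou := uPartR R X
  let ov := vPartR Q Y
  let oa := alphasR X Y
  let om := matFR ou.2.2.2.2.2.2.2.1 ou.2.2.2.2.2.2.2.2.1 ou.2.2.2.2.2.2.2.2.2.1 X Y ov.1
  let pa0 := permAR R Q oa.1
  let pa1 := permAR R Q oa.2.1
  let pa2 := permAR R Q oa.2.2.1
  let pa3 := permAR R Q oa.2.2.2.1
  let pa4 := permAR R Q oa.2.2.2.2.1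
  let pa5 := permAR R Q oa.2.2.2.2.2
  let pb0 := permBR pa0.1 pa0.2 oa.1 om.2.2.2.2.2.2.2.2.2.2.2.2.2.2.2.2.2.2 ou.2.2.2.2.2.2.2.2.2.2.2 om.1 om.2.1 om.2.2.1
  let pb1 := permBR pa1.1 pa1.2 oa.2.1 om.2.2.2.2.2.2.2.2.2.2.2.2.2.2.2.2.2.2 ou.2.2.2.2.2.2.2.2.2.2.2 om.2.2.2.1 om.2.2.2.2.1 om.2.2.2.2.2.1
  let pb2 := permBR pa2.1 pa2.2 oa.2.2.1 om.2.2.2.2.2.2.2.2.2.2.2.2.2.2.2.2.2.2 ou.2.2.2.2.2.2.2.2.2.2.2 om.2.2.2.2.2.2.1 om.2.2.2.2.2.2.2.1 om.2.2.2.2.2.2.2.2.1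
  let pb3 := permBR pa3.1 pa3.2 oa.2.2.2.1 om.2.2.2.2.2.2.2.2.2.2.2.2.2.2.2.2.2.2 ou.2.2.2.2.2.2.2.2.2.2.2 om.2.2.2.2.2.2.2.2.2.1 om.2.2.2.2.2.2.2.2.2.2.1 om.2.2.2.2.2.2.2.2.2.2.2.1
  let pb4 := permBR pa4.1 pa4.2 oa.2.2.2.2.1 om.2.2.2.2.2.2.2.2.2.2.2.2.2.2.2.2.2.2 ou.2.2.2.2.2.2.2.2.2.2.2 om.2.2.2.2.2.2.2.2.2.2.2.2.1 om.2.2.2.2.2.2.2.2.2.2.2.2.2.1 om.2.2.2.2.2.2.2.2.2.2.2.2.2.2.1
  let pb5 := permBR pa5.1 pa5.2 oa.2.2.2.2.2 om.2.2.2.2.2.2.2.2.2.2.2.2.2.2.2.2.2.2 ou.2.2.2.2.2.2.2.2.2.2.2 om.2.2.2.2.2.2.2.2.2.2.2.2.2.2.2.1 om.2.2.2.2.2.2.2.2.2.2.2.2.2.2.2.2.1 om.2.2.2.2.2.2.2.2.2.2.2.2.2.2.2.2.2.1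
  let aux1 := pb0.1 + pb1.1
  let aux2 := aux1 + pb2.1
  let aux3 := aux2 + pb3.1
  let aux4 := aux3 + pb4.1
  let aux5 := aux4 + pb5.1
  let aux6 := pb0.2.1 + pb1.2.1
  let aux7 := aux6 + pb2.2.1
  let aux8 := aux7 + pb3.2.1
  let aux9 := aux8 + pb4.2.1
  let aux10 := aux9 + pb5.2.1
  let aux11 := pb0.2.2.1 + pb1.2.2.1
  let aux12 := aux11 + pb2.2.2.1
  let aux13 := aux12 + pb3.2.2.1
  let aux14 := aux13 + pb4.2.2.1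
  let aux15 := aux14 + pb5.2.2.1
  let aux16 := pb0.2.2.2.1 + pb1.2.2.2.1
  let aux17 := aux16 + pb2.2.2.2.1
  let aux18 := aux17 + pb3.2.2.2.1
  let aux19 := aux18 + pb4.2.2.2.1
  let aux20 := aux19 + pb5.2.2.2.1
  let aux21 := pb0.2.2.2.2 + pb1.2.2.2.2
  let aux22 := aux21 + pb2.2.2.2.2
  let aux23 := aux22 + pb3.2.2.2.2
  let aux24 := aux23 + pb4.2.2.2.2
  let aux25 := aux24 + pb5.2.2.2.2
  let isg := ov.2.1⁻¹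
  let aux26 := ov.2.2.2.2.1 * isg
  let tau := ((3 : ℕ) : ℝ) * aux26
  let aux27 := isg / 2 ^ (1 : ℕ)
  let is6 := aux27 / 3
  let B1 := is6 * aux5
  let B2 := is6 * aux10
  let B6 := is6 * aux15
  let B4 := is6 * aux20
  let B5 := is6 * aux25
  let oh := hPartR ou.1 ou.2.1 ou.2.2.1 ou.2.2.2.2.1 ou.2.2.2.2.2.2.1
  let op := polysR ou.1 ou.2.1 ou.2.2.1 ou.2.2.2.2.2.1 ou.2.2.2.2.2.2.1
  let ofin := finalFR ou.1 ou.2.2.1 ou.2.2.2.1 ou.2.2.2.2.1 ou.2.2.2.2.2.2.2.2.2.2.1 oh.1 oh.2.1 oh.2.2 op.1 op.2.1 op.2.2 ov.2.2.1 ov.2.2.2.1 ov.2.2.2.2.2.1 ov.2.2.2.2.2.2.1 ov.2.2.2.2.2.2.2.1 ov.2.2.2.2.2.2.2.2 tau B1 B2 B4 B5 B6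
  (pa0.2, pa1.2, pa2.2, pa3.2, pa4.2, pa5.2, ov.2.1, ofin)

/-- Soundness of the block `progF`. -/
theorem mem_progF {P : Pt} {t_R t_X t_Q t_Y : TM} {R X Q Y : ℝ}
    (h_R : Mem P t_R R) (h_X : Mem P t_X X) (h_Q : Mem P t_Q Q) (h_Y : Mem P t_Y Y)
    (hpos0 : posT (progFT t_R t_X t_Q t_Y).1 = true)
    (hpos1 : posT (progFT t_R t_X t_Q t_Y).2.1 = true)
    (hpos2 : posT (progFT t_R t_X t_Q t_Y).2.2.1 = true)
    (hpos3 : posT (progFT t_R t_X t_Q t_Y).2.2.2.1 = true)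
    (hpos4 : posT (progFT t_R t_X t_Q t_Y).2.2.2.2.1 = true)
    (hpos5 : posT (progFT t_R t_X t_Q t_Y).2.2.2.2.2.1 = true)
    (hpos6 : posT (progFT t_R t_X t_Q t_Y).2.2.2.2.2.2.1 = true)
    :
    Mem P (progFT t_R t_X t_Q t_Y).1 (progFR R X Q Y).1 ∧
    Mem P (progFT t_R t_X t_Q t_Y).2.1 (progFR R X Q Y).2.1 ∧
    Mem P (progFT t_R t_X t_Q t_Y).2.2.1 (progFR R X Q Y).2.2.1 ∧
    Mem P (progFT t_R t_X t_Q t_Y).2.2.2.1 (progFR R X Q Y).2.2.2.1 ∧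
    Mem P (progFT t_R t_X t_Q t_Y).2.2.2.2.1 (progFR R X Q Y).2.2.2.2.1 ∧
    Mem P (progFT t_R t_X t_Q t_Y).2.2.2.2.2.1 (progFR R X Q Y).2.2.2.2.2.1 ∧
    Mem P (progFT t_R t_X t_Q t_Y).2.2.2.2.2.2.1 (progFR R X Q Y).2.2.2.2.2.2.1 ∧
    Mem P (progFT t_R t_X t_Q t_Y).2.2.2.2.2.2.2 (progFR R X Q Y).2.2.2.2.2.2.2 := by
  have h_ou := mem_uPart h_R h_X
  have h_ov := mem_vPart h_Q h_Y
  have h_oa := mem_alphas h_X h_Y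
  have h_om := mem_matF h_ou.2.2.2.2.2.2.2.1 h_ou.2.2.2.2.2.2.2.2.1 h_ou.2.2.2.2.2.2.2.2.2.1 h_X h_Y h_ov.1
  have h_pa0 := mem_permA h_R h_Q h_oa.1
  have h_pa1 := mem_permA h_R h_Q h_oa.2.1
  have h_pa2 := mem_permA h_R h_Q h_oa.2.2.1
  have h_pa3 := mem_permA h_R h_Q h_oa.2.2.2.1
  have h_pa4 := mem_permA h_R h_Q h_oa.2.2.2.2.1
  have h_pa5 := mem_permA h_R h_Q h_oa.2.2.2.2.2
  have h_pb0 := mem_permB h_pa0.1 h_pa0.2 h_oa.1 h_om.2.2.2.2.2.2.2.2.2.2.2.2.2.2.2.2.2.2 h_ou.2.2.2.2.2.2.2.2.2.2.2 h_om.1 h_om.2.1 h_om.2.2.1 hpos0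
  have h_pb1 := mem_permB h_pa1.1 h_pa1.2 h_oa.2.1 h_om.2.2.2.2.2.2.2.2.2.2.2.2.2.2.2.2.2.2 h_ou.2.2.2.2.2.2.2.2.2.2.2 h_om.2.2.2.1 h_om.2.2.2.2.1 h_om.2.2.2.2.2.1 hpos1
  have h_pb2 := mem_permB h_pa2.1 h_pa2.2 h_oa.2.2.1 h_om.2.2.2.2.2.2.2.2.2.2.2.2.2.2.2.2.2.2 h_ou.2.2.2.2.2.2.2.2.2.2.2 h_om.2.2.2.2.2.2.1 h_om.2.2.2.2.2.2.2.1 h_om.2.2.2.2.2.2.2.2.1 hpos2
  have h_pb3 := mem_permB h_pa3.1 h_pa3.2 h_oa.2.2.2.1 h_om.2.2.2.2.2.2.2.2.2.2.2.2.2.2.2.2.2.2 h_ou.2.2.2.2.2.2.2.2.2.2.2 h_om.2.2.2.2.2.2.2.2.2.1 h_om.2.2.2.2.2.2.2.2.2.2.1 h_om.2.2.2.2.2.2.2.2.2.2.2.1 hpos3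
  have h_pb4 := mem_permB h_pa4.1 h_pa4.2 h_oa.2.2.2.2.1 h_om.2.2.2.2.2.2.2.2.2.2.2.2.2.2.2.2.2.2 h_ou.2.2.2.2.2.2.2.2.2.2.2 h_om.2.2.2.2.2.2.2.2.2.2.2.2.1 h_om.2.2.2.2.2.2.2.2.2.2.2.2.2.1 h_om.2.2.2.2.2.2.2.2.2.2.2.2.2.2.1 hpos4
  have h_pb5 := mem_permB h_pa5.1 h_pa5.2 h_oa.2.2.2.2.2 h_om.2.2.2.2.2.2.2.2.2.2.2.2.2.2.2.2.2.2 h_ou.2.2.2.2.2.2.2.2.2.2.2 h_om.2.2.2.2.2.2.2.2.2.2.2.2.2.2.2.1 h_om.2.2.2.2.2.2.2.2.2.2.2.2.2.2.2.2.1 h_om.2.2.2.2.2.2.2.2.2.2.2.2.2.2.2.2.2.1 hpos5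
  have h_aux1 := mem_add h_pb0.1 h_pb1.1
  have h_aux2 := mem_add h_aux1 h_pb2.1
  have h_aux3 := mem_add h_aux2 h_pb3.1
  have h_aux4 := mem_add h_aux3 h_pb4.1
  have h_aux5 := mem_add h_aux4 h_pb5.1
  have h_aux6 := mem_add h_pb0.2.1 h_pb1.2.1
  have h_aux7 := mem_add h_aux6 h_pb2.2.1
  have h_aux8 := mem_add h_aux7 h_pb3.2.1
  have h_aux9 := mem_add h_aux8 h_pb4.2.1
  have h_aux10 := mem_add h_aux9 h_pb5.2.1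
  have h_aux11 := mem_add h_pb0.2.2.1 h_pb1.2.2.1
  have h_aux12 := mem_add h_aux11 h_pb2.2.2.1
  have h_aux13 := mem_add h_aux12 h_pb3.2.2.1
  have h_aux14 := mem_add h_aux13 h_pb4.2.2.1
  have h_aux15 := mem_add h_aux14 h_pb5.2.2.1
  have h_aux16 := mem_add h_pb0.2.2.2.1 h_pb1.2.2.2.1
  have h_aux17 := mem_add h_aux16 h_pb2.2.2.2.1
  have h_aux18 := mem_add h_aux17 h_pb3.2.2.2.1
  have h_aux19 := mem_add h_aux18 h_pb4.2.2.2.1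
  have h_aux20 := mem_add h_aux19 h_pb5.2.2.2.1
  have h_aux21 := mem_add h_pb0.2.2.2.2 h_pb1.2.2.2.2
  have h_aux22 := mem_add h_aux21 h_pb2.2.2.2.2
  have h_aux23 := mem_add h_aux22 h_pb3.2.2.2.2
  have h_aux24 := mem_add h_aux23 h_pb4.2.2.2.2
  have h_aux25 := mem_add h_aux24 h_pb5.2.2.2.2
  have h_isg := mem_inv h_ov.2.1 hpos6
  have h_aux26 := mem_mul h_ov.2.2.2.2.1 h_isg
  have h_tau := mem_smul 3 h_aux26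
  have h_aux27 := mem_shr 1 h_isg
  have h_is6 := mem_third h_aux27
  have h_B1 := mem_mul h_is6 h_aux5
  have h_B2 := mem_mul h_is6 h_aux10
  have h_B6 := mem_mul h_is6 h_aux15
  have h_B4 := mem_mul h_is6 h_aux20
  have h_B5 := mem_mul h_is6 h_aux25
  have h_oh := mem_hPart h_ou.1 h_ou.2.1 h_ou.2.2.1 h_ou.2.2.2.2.1 h_ou.2.2.2.2.2.2.1
  have h_op := mem_polys h_ou.1 h_ou.2.1 h_ou.2.2.1 h_ou.2.2.2.2.2.1 h_ou.2.2.2.2.2.2.1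
  have h_ofin := mem_finalF h_ou.1 h_ou.2.2.1 h_ou.2.2.2.1 h_ou.2.2.2.2.1 h_ou.2.2.2.2.2.2.2.2.2.2.1 h_oh.1 h_oh.2.1 h_oh.2.2 h_op.1 h_op.2.1 h_op.2.2 h_ov.2.2.1 h_ov.2.2.2.1 h_ov.2.2.2.2.2.1 h_ov.2.2.2.2.2.2.1 h_ov.2.2.2.2.2.2.2.1 h_ov.2.2.2.2.2.2.2.2 h_tau h_B1 h_B2 h_B4 h_B5 h_B6
  exact ⟨h_pa0.2, h_pa1.2, h_pa2.2, h_pa3.2, h_pa4.2, h_pa5.2, h_ov.2.1, h_ofin⟩

/-- Real mirror of `progGT`. -/
noncomputable def progGR (R X Q Y : ℝ) : ℝ × ℝ × ℝ × ℝ × ℝ × ℝ × ℝ × ℝ :=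
  let ou := uPartR R X
  let ov := vPartR Q Y
  let oa := alphasR X Y
  let om := matGR ou.2.2.2.2.2.2.2.1 ou.2.2.2.2.2.2.2.2.1 ou.2.2.2.2.2.2.2.2.2.1 X Y ov.1
  let pa0 := permAR R Q oa.1
  let pa1 := permAR R Q oa.2.1
  let pa2 := permAR R Q oa.2.2.1
  let pa3 := permAR R Q oa.2.2.2.1
  let pa4 := permAR R Q oa.2.2.2.2.1
  let pa5 := permAR R Q oa.2.2.2.2.2
  let pb0 := permGR pa0.1 pa0.2 oa.1 om.2.2.2.2.2.2.2.2.2.2.2.2 om.1 om.2.1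
  let pb1 := permGR pa1.1 pa1.2 oa.2.1 om.2.2.2.2.2.2.2.2.2.2.2.2 om.2.2.1 om.2.2.2.1
  let pb2 := permGR pa2.1 pa2.2 oa.2.2.1 om.2.2.2.2.2.2.2.2.2.2.2.2 om.2.2.2.2.1 om.2.2.2.2.2.1
  let pb3 := permGR pa3.1 pa3.2 oa.2.2.2.1 om.2.2.2.2.2.2.2.2.2.2.2.2 om.2.2.2.2.2.2.1 om.2.2.2.2.2.2.2.1
  let pb4 := permGR pa4.1 pa4.2 oa.2.2.2.2.1 om.2.2.2.2.2.2.2.2.2.2.2.2 om.2.2.2.2.2.2.2.2.1 om.2.2.2.2.2.2.2.2.2.1
  let pb5 := permGR pa5.1 pa5.2 oa.2.2.2.2.2 om.2.2.2.2.2.2.2.2.2.2.2.2 om.2.2.2.2.2.2.2.2.2.2.1 om.2.2.2.2.2.2.2.2.2.2.2.1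
  let aux1 := pb0 + pb1
  let aux2 := aux1 + pb2
  let aux3 := aux2 + pb3
  let aux4 := aux3 + pb4
  let aux5 := aux4 + pb5
  let isg := ov.2.1⁻¹
  let aux6 := isg / 2 ^ (1 : ℕ)
  let is6 := aux6 / 3
  let B1 := is6 * aux5
  let oh := hPartR ou.1 ou.2.1 ou.2.2.1 ou.2.2.2.2.1 ou.2.2.2.2.2.2.1
  let aux7 := ((3 : ℕ) : ℝ) * ou.2.2.1
  let aux8 := (((3 : ℕ) : ℝ) / 2 ^ (6 : ℕ)) * oh.2.2
  let aux9 := aux7 - aux8
  let aux10 := (((3 : ℕ) : ℝ) / 2 ^ (4 : ℕ)) * aux9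
  let aux11 := -oh.1
  let aux12 := aux11 - aux10
  let aux13 := ou.1 / 2 ^ (10 : ℕ)
  let aux14 := aux12 - aux13
  let aux15 := ov.2.2.2.2.2.2.2.1 * oh.2.1
  let aux16 := aux14 + aux15
  let aux17 := ov.2.2.1 * B1
  let aux18 := aux16 - aux17
  (pa0.2, pa1.2, pa2.2, pa3.2, pa4.2, pa5.2, ov.2.1, aux18)

/-- Soundness of the block `progG`. -/
theorem mem_progG {P : Pt} {t_R t_X t_Q t_Y : TM} {R X Q Y : ℝ}
    (h_R : Mem P t_R R) (h_X : Mem P t_X X) (h_Q : Mem P t_Q Q) (h_Y : Mem P t_Y Y)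
    (hpos0 : posT (progGT t_R t_X t_Q t_Y).1 = true)
    (hpos1 : posT (progGT t_R t_X t_Q t_Y).2.1 = true)
    (hpos2 : posT (progGT t_R t_X t_Q t_Y).2.2.1 = true)
    (hpos3 : posT (progGT t_R t_X t_Q t_Y).2.2.2.1 = true)
    (hpos4 : posT (progGT t_R t_X t_Q t_Y).2.2.2.2.1 = true)
    (hpos5 : posT (progGT t_R t_X t_Q t_Y).2.2.2.2.2.1 = true)
    (hpos6 : posT (progGT t_R t_X t_Q t_Y).2.2.2.2.2.2.1 = true)
    :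
    Mem P (progGT t_R t_X t_Q t_Y).1 (progGR R X Q Y).1 ∧
    Mem P (progGT t_R t_X t_Q t_Y).2.1 (progGR R X Q Y).2.1 ∧
    Mem P (progGT t_R t_X t_Q t_Y).2.2.1 (progGR R X Q Y).2.2.1 ∧
    Mem P (progGT t_R t_X t_Q t_Y).2.2.2.1 (progGR R X Q Y).2.2.2.1 ∧
    Mem P (progGT t_R t_X t_Q t_Y).2.2.2.2.1 (progGR R X Q Y).2.2.2.2.1 ∧
    Mem P (progGT t_R t_X t_Q t_Y).2.2.2.2.2.1 (progGR R X Q Y).2.2.2.2.2.1 ∧
    Mem P (progGT t_R t_X t_Q t_Y).2.2.2.2.2.2.1 (progGR R X Q Y).2.2.2.2.2.2.1 ∧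
    Mem P (progGT t_R t_X t_Q t_Y).2.2.2.2.2.2.2 (progGR R X Q Y).2.2.2.2.2.2.2 := by
  have h_ou := mem_uPart h_R h_X
  have h_ov := mem_vPart h_Q h_Y
  have h_oa := mem_alphas h_X h_Y
  have h_om := mem_matG h_ou.2.2.2.2.2.2.2.1 h_ou.2.2.2.2.2.2.2.2.1 h_ou.2.2.2.2.2.2.2.2.2.1 h_X h_Y h_ov.1
  have h_pa0 := mem_permA h_R h_Q h_oa.1
  have h_pa1 := mem_permA h_R h_Q h_oa.2.1
  have h_pa2 := mem_permA h_R h_Q h_oa.2.2.1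
  have h_pa3 := mem_permA h_R h_Q h_oa.2.2.2.1
  have h_pa4 := mem_permA h_R h_Q h_oa.2.2.2.2.1
  have h_pa5 := mem_permA h_R h_Q h_oa.2.2.2.2.2
  have h_pb0 := mem_permG h_pa0.1 h_pa0.2 h_oa.1 h_om.2.2.2.2.2.2.2.2.2.2.2.2 h_om.1 h_om.2.1 hpos0
  have h_pb1 := mem_permG h_pa1.1 h_pa1.2 h_oa.2.1 h_om.2.2.2.2.2.2.2.2.2.2.2.2 h_om.2.2.1 h_om.2.2.2.1 hpos1
  have h_pb2 := mem_permG h_pa2.1 h_pa2.2 h_oa.2.2.1 h_om.2.2.2.2.2.2.2.2.2.2.2.2 h_om.2.2.2.2.1 h_om.2.2.2.2.2.1 hpos2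
  have h_pb3 := mem_permG h_pa3.1 h_pa3.2 h_oa.2.2.2.1 h_om.2.2.2.2.2.2.2.2.2.2.2.2 h_om.2.2.2.2.2.2.1 h_om.2.2.2.2.2.2.2.1 hpos3
  have h_pb4 := mem_permG h_pa4.1 h_pa4.2 h_oa.2.2.2.2.1 h_om.2.2.2.2.2.2.2.2.2.2.2.2 h_om.2.2.2.2.2.2.2.2.1 h_om.2.2.2.2.2.2.2.2.2.1 hpos4
  have h_pb5 := mem_permG h_pa5.1 h_pa5.2 h_oa.2.2.2.2.2 h_om.2.2.2.2.2.2.2.2.2.2.2.2 h_om.2.2.2.2.2.2.2.2.2.2.1 h_om.2.2.2.2.2.2.2.2.2.2.2.1 hpos5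
  have h_aux1 := mem_add h_pb0 h_pb1
  have h_aux2 := mem_add h_aux1 h_pb2
  have h_aux3 := mem_add h_aux2 h_pb3
  have h_aux4 := mem_add h_aux3 h_pb4
  have h_aux5 := mem_add h_aux4 h_pb5
  have h_isg := mem_inv h_ov.2.1 hpos6
  have h_aux6 := mem_shr 1 h_isg
  have h_is6 := mem_third h_aux6
  have h_B1 := mem_mul h_is6 h_aux5
  have h_oh := mem_hPart h_ou.1 h_ou.2.1 h_ou.2.2.1 h_ou.2.2.2.2.1 h_ou.2.2.2.2.2.2.1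
  have h_aux7 := mem_smul 3 h_ou.2.2.1
  have h_aux8 := mem_scale 3 6 h_oh.2.2
  have h_aux9 := mem_sub h_aux7 h_aux8
  have h_aux10 := mem_scale 3 4 h_aux9
  have h_aux11 := mem_neg h_oh.1
  have h_aux12 := mem_sub h_aux11 h_aux10
  have h_aux13 := mem_shr 10 h_ou.1
  have h_aux14 := mem_sub h_aux12 h_aux13
  have h_aux15 := mem_mul h_ov.2.2.2.2.2.2.2.1 h_oh.2.1
  have h_aux16 := mem_add h_aux14 h_aux15
  have h_aux17 := mem_mul h_ov.2.2.1 h_B1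
  have h_aux18 := mem_sub h_aux16 h_aux17
  exact ⟨h_pa0.2, h_pa1.2, h_pa2.2, h_pa3.2, h_pa4.2, h_pa5.2, h_ov.2.1, h_aux18⟩

end Vale.Agent.Lib.P154
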